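import Vale.Agent.P240.R2.H667.Fin5
import Vale.Agent.P240.H138.T6

/-!
The block (O5-) of `H138.T6`.
-/

set_option autoImplicit false
set_option linter.all false

namespace Vale.Agent.P240.R2.H667

universe v w

/-- **(O5-)** -/
theorem stmtO5m : H138.T6.StmtO5m.{v, w} :=
  fun 𝕜 _ h5 ho hm hd _ _ e => topFac_D5 𝕜 h5 ho hm hd e

end Vale.Agent.P240.R2.H667
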