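import Vale.Agent.P240.R2.H490.P5V3

/-!
The block `V_6`: the traceless matrices in two tensor factors.
-/

set_option autoImplicit false
set_option linter.all false

namespace Vale.Agent.P240.R2.H667.V6

open Subgroup Matrix Vale.Agent.P240 Vale.Agent.P240.H195 Vale.Agent.P240.R2.H487
open Vale.Agent.P240.R2.H490

universe u v w

/-- the factor and the base matrix of the six vectors -/
def f6 : Fin 6 → Bool × Fin 3 :=
  ![(false, 0), (false, 2), (true, 0), (false, 1), (true, 1), (true, 2)]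

lemma f6_inj : ∀ i k : Fin 6, i ≠ k → (f6 i).1 = (f6 k).1 → (f6 i).2 ≠ (f6 k).2 := by decide

/-- the form -/
def d6 (i : Fin 6) : ZMod 5 := if (f6 i).1 then -db (f6 i).2 else db (f6 i).2

lemma d6_ne : ∀ i, d6 i ≠ 0 := by decide

section
variable {F : Type u} [Field F] {a m : ℕ} (ι : ZMod 5 →+* F) (σ : Fin (m + 1) ≃ (Fin a → Fin 2))
  (j j' : Fin a)

/-- the factor -/
def jj (b : Bool) : Fin a := if b then j' else j

/-- the sign -/
def s6 (F : Type u) [Field F] (b : Bool) : F := if b then 1 else -1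

/-- the matrices -/
def c6 (i : Fin 6) : Matrix (Fin (m + 1)) (Fin (m + 1)) F := TT σ (jj j j' (f6 i).1) (bF ι (f6 i).2)

/-- the second matrices -/
def c6' (i : Fin 6) : Matrix (Fin (m + 1)) (Fin (m + 1)) F := s6 F (f6 i).1 • c6 ι σ j j' i

variable {j j'}

lemma jj_ne (hj : j ≠ j') {b b' : Bool} (h : b ≠ b') : jj j j' b ≠ jj j j' b' := by
  cases b <;> cases b'
  · exact absurd rfl h
  · exact hj
  · exact hj.symm
  · exact absurd rfl h

lemma c6_sq (i : Fin 6) : c6 ι σ j j' i * c6 ι σ j j' i = (-(ι (db (f6 i).2))) • 1 := by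
  rw [c6, TT_mul, bF_sq, TT_scalar]

lemma c6_same {i k : Fin 6} (hik : i ≠ k) (h : (f6 i).1 = (f6 k).1) :
    c6 ι σ j j' i * c6 ι σ j j' k = -(c6 ι σ j j' k * c6 ι σ j j' i) := by
  rw [c6, c6, h, TT_mul, TT_mul, bF_anti ι _ _ (f6_inj i k hik h), TT_neg]

lemma c6_diff (hj : j ≠ j') {i k : Fin 6} (h : (f6 i).1 ≠ (f6 k).1) :
    c6 ι σ j j' i * c6 ι σ j j' k = c6 ι σ j j' k * c6 ι σ j j' i :=
  TT_comm σ (jj_ne hj h) _ _

lemma s6_diff {b b' : Bool} (h : b ≠ b') : s6 F b = -s6 F b' := by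
  cases b <;> cases b' <;> simp_all [s6]

lemma c6_anti (hj : j ≠ j') (i k : Fin 6) (hik : i ≠ k) :
    c6 ι σ j j' i * c6' ι σ j j' k = -(c6 ι σ j j' k * c6' ι σ j j' i) := by
  rw [c6', c6', mul_smul_comm, mul_smul_comm]
  by_cases h : (f6 i).1 = (f6 k).1
  · rw [c6_same ι σ hik h, h, smul_neg]
  · rw [c6_diff ι σ hj h, s6_diff (F := F) h, neg_smul, neg_neg]

lemma c6_anti' (hj : j ≠ j') (i k : Fin 6) (hik : i ≠ k) :
    c6' ι σ j j' i * c6 ι σ j j' k = -(c6' ι σ j j' k * c6 ι σ j j' i) := by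
  rw [c6', c6', smul_mul_assoc, smul_mul_assoc]
  by_cases h : (f6 i).1 = (f6 k).1
  · rw [c6_same ι σ hik h, h, smul_neg]
  · rw [c6_diff ι σ hj h, s6_diff (F := F) h, neg_smul]

lemma sq6 (i : Fin 6) : c6 ι σ j j' i * c6' ι σ j j' i = ι (d6 i) • 1 := by
  rw [c6', mul_smul_comm, c6_sq, smul_smul, d6, s6]
  congr 1
  split_ifs
  · rw [one_mul, map_neg]
  · rw [neg_one_mul, neg_neg]

lemma sq6' (i : Fin 6) : c6' ι σ j j' i * c6 ι σ j j' i = ι (d6 i) • 1 := by
  rw [← sq6 ι σ i, c6', smul_mul_assoc, mul_smul_comm]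

/-- the first component -/
def BX (y : Fin 6 → ZMod 5) : M2 (ZMod 5) := y 0 • bb 0 + y 1 • bb 2 + y 3 • bb 1

/-- the second component -/
def BY (y : Fin 6 → ZMod 5) : M2 (ZMod 5) := y 2 • bb 0 + y 4 • bb 1 + y 5 • bb 2

lemma bb_tr : ∀ i, (bb i).trace = 0 := by decide

lemma BX_tr (y : Fin 6 → ZMod 5) : (BX y).trace = 0 := by
  simp only [BX, Matrix.trace_add, Matrix.trace_smul, bb_tr, smul_zero, add_zero]

lemma BY_tr (y : Fin 6 → ZMod 5) : (BY y).trace = 0 := by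
  simp only [BY, Matrix.trace_add, Matrix.trace_smul, bb_tr, smul_zero, add_zero]

lemma map_smul' (c : ZMod 5) (x : M2 (ZMod 5)) : (c • x).map ι = ι c • x.map ι := by
  ext i k
  simp [Matrix.map_apply]

lemma map_add' (x y : M2 (ZMod 5)) : (x + y).map ι = x.map ι + y.map ι := by
  ext i k
  simp [Matrix.map_apply]

lemma CC_c6 (y : Fin 6 → ZMod 5) :
    CC ι (c6 ι σ j j') y = TT σ j ((BX y).map ι) + TT σ j' ((BY y).map ι) := by
  rw [CC, BX, BY, Fin.sum_univ_six]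
  simp only [map_add', map_smul', TT_add, TT_smul]
  simp only [c6, f6, jj, bF]
  simp
  abel

/-- a matrix of size two that commutes with all others -/
lemma scal2 {X : M2 F} (h2 : (2 : F) ≠ 0) (ht : X.trace = 0) (h : ∀ Z : M2 F, X * Z = Z * X) :
    X = 0 := by
  have h1 := h !![0, 1; 0, 0]
  have h3 := h !![0, 0; 1, 0]
  rw [Matrix.eta_fin_two X, Matrix.mul_fin_two, Matrix.mul_fin_two] at h1 h3
  have e1 := congrFun (congrFun h1 0) 1
  have e2 := congrFun (congrFun h1 1) 1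
  have e3 := congrFun (congrFun h3 0) 0
  simp at e1 e2 e3
  rw [Matrix.trace_fin_two] at ht
  have e4 : X 0 0 = 0 := by
    have : (2 : F) * X 0 0 = 0 := by linear_combination ht + e1
    exact (mul_eq_zero.1 this).resolve_left h2
  rw [Matrix.eta_fin_two X, e3, e2, e4, ← e1, e4]
  ext i k
  fin_cases i <;> fin_cases k <;> rfl

/-- the components are determined -/
lemma TT_ind (hj : j ≠ j') (h2 : (2 : F) ≠ 0) {X Y : M2 F} (hX : X.trace = 0) (hY : Y.trace = 0)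
    (h : TT σ j X + TT σ j' Y = 0) : X = 0 ∧ Y = 0 := by
  have hX0 : X = 0 := by
    refine scal2 h2 hX fun Z => ?_
    have h1 : TT σ j X = -TT σ j' Y := eq_neg_of_add_eq_zero_left h
    have h3 : TT σ j X * TT σ j Z = TT σ j Z * TT σ j X := by
      rw [h1, neg_mul, mul_neg, TT_comm σ hj.symm]
    rw [TT_mul, TT_mul] at h3
    have h4 : TT σ j (X * Z - Z * X) = 0 := by rw [TT_sub, h3, sub_self]
    exact sub_eq_zero.1 (TT_inj σ h4)
  refine ⟨hX0, ?_⟩
  rw [hX0, TT_zero, zero_add] at h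
  exact TT_inj σ h

lemma ind6 (hj : j ≠ j') : LinearIndependent F (c6 ι σ j j') := by
  have h2 := two_ne0 ι
  rw [Fintype.linearIndependent_iff]
  intro g hg
  have h1 : TT σ j (g 0 • bF ι 0 + g 1 • bF ι 2 + g 3 • bF ι 1) +
      TT σ j' (g 2 • bF ι 0 + g 4 • bF ι 1 + g 5 • bF ι 2) = 0 := by
    rw [← hg, Fin.sum_univ_six]
    simp only [TT_add, TT_smul]
    simp only [c6, f6, jj]
    simp
    abel
  obtain ⟨hX, hY⟩ := TT_ind σ hj h2
    (by simp only [Matrix.trace_add, Matrix.trace_smul, bF_trace, smul_zero, add_zero])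
    (by simp only [Matrix.trace_add, Matrix.trace_smul, bF_trace, smul_zero, add_zero]) h1
  have key : ∀ p q r : F, p • bF ι 0 + q • bF ι 2 + r • bF ι 1 = 0 → p = 0 ∧ q = 0 ∧ r = 0 := by
    intro p q r h
    rw [bF_0, bF_1, bF_2] at h
    have e1 := congrFun (congrFun h 0) 0
    have e2 := congrFun (congrFun h 0) 1
    have e3 := congrFun (congrFun h 1) 0
    simp at e1 e2 e3
    have e4 : p = q := by linear_combination e2
    have e5 : (2 * 2 : F) * q = 0 := by linear_combination e3 - 2 * e2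
    have e6 : q = 0 := (mul_eq_zero.1 e5).resolve_left (mul_ne_zero h2 h2)
    exact ⟨by rw [e4, e6], e6, e1⟩
  obtain ⟨k0, k1, k3⟩ := key _ _ _ hX
  obtain ⟨k2, k5, k4⟩ := key (g 2) (g 5) (g 4) (by rw [← hY]; abel)
  intro i
  fin_cases i
  · exact k0
  · exact k1
  · exact k2
  · exact k3
  · exact k4
  · exact k5

lemma map_tr {B : M2 (ZMod 5)} (h : B.trace = 0) : (B.map ι).trace = 0 := by
  rw [Matrix.trace_fin_two] at h ⊢
  rw [Matrix.map_apply, Matrix.map_apply, ← map_add, h, map_zero]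

lemma CC6_br (y : Fin 6 → ZMod 5) :
    br σ (CC ι (c6 ι σ j j') y) = -CC ι (c6 ι σ j j') y := by
  rw [CC_c6, br_add, br_TT_neg σ j _ (map_tr ι (BX_tr y)), br_TT_neg σ j' _ (map_tr ι (BY_tr y)),
    neg_add]

theorem cs6 (r : ℕ) [Fact r.Prime] [CharP F r] (hm : 1 ≤ m) (hj : j ≠ j') :
    CS ι d6 (c6 ι σ j j') (c6' ι σ j j') (pgl m F) (g0 σ) where
  two := two_ne0 ι
  sq i := sq6 ι σ i
  sq' i := sq6' ι σ i
  anti i k h := c6_anti ι σ hj i k h
  anti' i k h := c6_anti' ι σ hj i k h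
  ind := ind6 ι σ hj
  ker U := pgl_ker r hm U
  del := g0_sq σ
  conj x hx U U' hU hU' := by
    refine g0_conj σ r hm (c := -ι (ip d6 x x)) ?_
    have h2 := two_ne0 ι
    have h3 : CC ι (c6 ι σ j j') x * CC ι (c6' ι σ j j') x = ι (ip d6 x x) • 1 :=
      half_eq h2 (by
        rw [CC_mul_aux h2 (sq6 ι σ) (c6_anti ι σ hj), mul_smul])
    rw [hU, hU', CC6_br, neg_mul, h3, neg_smul]

end

lemma types6 : (List.ofFn d6).map (fun x => IsSquare x) =
    List.replicate 3 False ++ (List.replicate 2 True ++ [False]) := by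
  have h1 : List.ofFn d6 = [3, 2, 2, 4, 1, 3] := by decide
  have e3 : IsSquare (3 : ZMod 5) = False := eq_false (by decide)
  have e4 : IsSquare (4 : ZMod 5) = True := eq_true (by decide)
  have e2 : IsSquare (2 : ZMod 5) = False := eq_false (by decide)
  have e1 : IsSquare (1 : ZMod 5) = True := eq_true (by decide)
  rw [h1]
  simp only [List.map_cons, List.map_nil, e3, e4, e2, e1]
  rfl

/-- products with a commuting involution -/
lemma two_mul' {G : Type*} [Group G] {g p q : G} (hg : g * g = 1) (hq : g * q = q * g) :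
    p * g * (q * g) = p * q := by
  calc p * g * (q * g) = p * (g * q) * g := by group
    _ = p * q * (g * g) := by rw [hq]; group
    _ = p * q := by rw [hg, mul_one]

section
variable {F : Type u} [Field F] {a m : ℕ} (ι : ZMod 5 →+* F) (σ : Fin (m + 1) ≃ (Fin a → Fin 2))
  (j j' : Fin a)

/-- the six elements -/
def p6 (i : Fin 6) : MulAut (PL m F) := pgl m F (gT σ (jj j j' (f6 i).1) (uB ι (f6 i).2))

variable {j j'}

lemma g0_p6 (r : ℕ) [Fact r.Prime] [CharP F r] (hm : 1 ≤ m) (i : Fin 6) :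
    g0 σ * p6 ι σ j j' i = p6 ι σ j j' i * g0 σ :=
  DM_gT σ r hm (g0_mem σ) (uB_rat ι _)

/-- three of them -/
lemma p6_three (r : ℕ) [Fact r.Prime] [CharP F r] (hm : 1 ≤ m) :
    p6 ι σ j j' 0 * p6 ι σ j j' 1 * p6 ι σ j j' 3 = 1 := by
  have h1 : p6 ι σ j j' 0 * p6 ι σ j j' 1 * p6 ι σ j j' 3 =
      pgl m F (gT σ j (uB ι 0 * uB ι 2 * uB ι 1)) := by
    rw [map_mul, map_mul, map_mul, map_mul]
    rfl
  rw [h1, pgl_ker r hm, gT_val, Units.val_mul, Units.val_mul, uB_val, uB_val, uB_val, ← bF_two',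
    ← mul_assoc (bF ι 0), bF_sq, smul_mul_assoc, one_mul, smul_mul_assoc, bF_sq, smul_smul,
    TT_scalar]
  exact ⟨_, rfl⟩

/-- the other three -/
lemma p6_three' (r : ℕ) [Fact r.Prime] [CharP F r] (hm : 1 ≤ m) :
    p6 ι σ j j' 2 * p6 ι σ j j' 4 * p6 ι σ j j' 5 = 1 := by
  have h1 : p6 ι σ j j' 2 * p6 ι σ j j' 4 * p6 ι σ j j' 5 =
      pgl m F (gT σ j' (uB ι 0 * uB ι 1 * uB ι 2)) := by
    rw [map_mul, map_mul, map_mul, map_mul]
    rfl
  rw [h1, pgl_ker r hm, gT_val, Units.val_mul, Units.val_mul, uB_val, uB_val, uB_val, bF_two',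
    bF_sq, TT_scalar]
  exact ⟨_, rfl⟩

lemma p6_comm (hj : j ≠ j') : p6 ι σ j j' 2 * p6 ι σ j j' 3 = p6 ι σ j j' 3 * p6 ι σ j j' 2 := by
  rw [p6, p6, ← map_mul, ← map_mul]
  congr 1
  exact gT_comm σ hj.symm _ _

lemma M6_le : M6 ι σ j j' ≤ (pgl m F).range ⊔ zpowers (g0 σ) := by
  refine (closure_le _).2 ?_
  rintro _ ⟨B, B', U, -, -, -, rfl⟩
  exact mul_mem (mem_sup_left ⟨_, rfl⟩) (mem_sup_right (mem_zpowers _))

lemma M6_comm (r : ℕ) [Fact r.Prime] [CharP F r] (hm : 1 ≤ m) {l : Fin a} (h : l ≠ j)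
    (h' : l ≠ j') {x : GL (Fin 2) F} (hx : Rat2 x) :
    ∀ g ∈ M6 ι σ j j', g * pgl m F (gT σ l x) = pgl m F (gT σ l x) * g := by
  have h1 : M6 ι σ j j' ≤ centralizer {pgl m F (gT σ l x)} := by
    refine (closure_le _).2 ?_
    rintro _ ⟨B, B', U, -, -, hU, rfl⟩
    refine mem_centralizer_iff.2 ?_
    rintro _ rfl
    have h2 : gT σ l x * U = U * gT σ l x := by
      apply Units.ext
      rw [Units.val_mul, Units.val_mul, gT_val, hU, mul_add, add_mul, TT_comm σ h, TT_comm σ h']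
    rw [← mul_assoc, ← map_mul, h2, map_mul, mul_assoc, mul_assoc, DM_gT σ r hm (g0_mem σ) hx]
  intro g hg
  exact ((mem_centralizer_iff.1 (h1 hg)) _ rfl).symm

/-- **The block `V_6`.** -/
theorem tcj6 [Finite F] {𝕜 : Type v} [Field 𝕜] (r : ℕ) [Fact r.Prime] [CharP F r] (hm : 1 ≤ m)
    (hHC : StmtHC ι σ) (hj : j ≠ j') :
    TCJ 𝕜 (M6 ι σ j j') (PJ ι σ {j, j'} ⊔ zpowers (g0 σ)) := by
  have h := cs6 ι σ r hm hj
  have he : ∀ i : Fin 6, ip d6 (Pi.single i 1) (Pi.single i 1) ≠ 0 := fun i => ip_std_ne d6_ne i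
  have hR : ∀ i : Fin 6, h.R (Pi.single i 1) = p6 ι σ j j' i * g0 σ := by
    intro i
    rw [h.R_eq (he i), p6]
    congr 2
    apply Units.ext
    rw [h.U_val, CC_single, gT_val, uB_val, c6]
  have hgg : g0 (F := F) σ * g0 σ = 1 := g0_sq σ
  have hgp : ∀ i, g0 σ * p6 ι σ j j' i = p6 ι σ j j' i * g0 σ := fun i => g0_p6 ι σ r hm i
  set Q := closure (Set.range fun i : Fin 6 => h.R (Pi.single i 1)) with hQdef
  have hRQ : ∀ i : Fin 6, p6 ι σ j j' i * g0 σ ∈ Q := fun i => by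
    rw [← hR]
    exact subset_closure ⟨i, rfl⟩
  have hgQ : g0 σ ∈ Q := by
    have h1 := mul_mem (mul_mem (hRQ 0) (hRQ 1)) (hRQ 3)
    rwa [two_mul' hgg (hgp 1), ← mul_assoc, p6_three ι σ r hm, one_mul] at h1
  have hpQ : ∀ i : Fin 6, p6 ι σ j j' i ∈ Q := fun i => by
    have h1 := mul_mem (hRQ i) hgQ
    rwa [mul_assoc, hgg, mul_one] at h1
  have hPQ : ∀ j0 ∈ ({j, j'} : Finset (Fin a)), ∀ i : Fin 3, i ≠ 2 →
      pgl m F (gT σ j0 (uB ι i)) ∈ Q := by
    intro j0 hj0 i hi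
    rw [Finset.mem_insert, Finset.mem_singleton] at hj0
    rcases hj0 with rfl | rfl
    · fin_cases i
      · exact hpQ 0
      · exact hpQ 3
      · exact absurd rfl hi
    · fin_cases i
      · exact hpQ 2
      · exact hpQ 4
      · exact absurd rfl hi
  have hQ : Q = PJ ι σ {j, j'} ⊔ zpowers (g0 σ) := by
    apply le_antisymm
    · refine (closure_le _).2 ?_
      rintro _ ⟨i, rfl⟩
      show h.R (Pi.single i 1) ∈ _
      rw [hR]
      refine mul_mem (mem_sup_left (gT_uB_mem ι σ ?_ _)) (mem_sup_right (mem_zpowers _))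
      rw [jj, Finset.mem_insert, Finset.mem_singleton]
      split_ifs
      · exact Or.inr rfl
      · exact Or.inl rfl
    · refine sup_le ((closure_le _).2 ?_) ?_
      · rintro _ ⟨j0, hj0, i, hi, rfl⟩
        exact hPQ j0 hj0 i hi
      · rw [zpowers_le]
        exact hgQ
  have hMM : ∀ y, ip d6 y y ≠ 0 → h.R y ∈ M6 ι σ j j' := by
    intro y hy
    rw [h.R_eq hy]
    exact subset_closure ⟨BX y, BY y, h.U hy, BX_tr y, BY_tr y, by rw [h.U_val, CC_c6], rfl⟩
  have h1 := h.vr.tcj (𝕜 := 𝕜) (RingEquiv.refl _) d6_ne (by norm_num) (M := M6 ι σ j j') ?_ hMM ?_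
    (by norm_num : 1 ≤ 2) types6
  · rwa [← hQdef, hQ] at h1
  · -- the standard product
    rw [List.ofFn_succ, List.ofFn_succ, List.ofFn_succ, List.ofFn_succ, List.ofFn_succ,
      List.ofFn_succ, List.ofFn_zero]
    simp only [List.prod_cons, List.prod_nil, mul_one]
    show h.R (Pi.single 0 1) * (h.R (Pi.single 1 1) * (h.R (Pi.single 2 1) *
      (h.R (Pi.single 3 1) * (h.R (Pi.single 4 1) * h.R (Pi.single 5 1))))) = 1
    rw [hR, hR, hR, hR, hR, hR, two_mul' hgg (hgp 5), ← mul_assoc (p6 ι σ j j' 2 * g0 σ),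
      two_mul' hgg (hgp 3), ← mul_assoc (p6 ι σ j j' 0 * g0 σ), two_mul' hgg (hgp 1),
      p6_comm ι σ hj]
    calc p6 ι σ j j' 0 * p6 ι σ j j' 1 * (p6 ι σ j j' 3 * p6 ι σ j j' 2 *
        (p6 ι σ j j' 4 * p6 ι σ j j' 5))
        = (p6 ι σ j j' 0 * p6 ι σ j j' 1 * p6 ι σ j j' 3) *
          (p6 ι σ j j' 2 * p6 ι σ j j' 4 * p6 ι σ j j' 5) := by group
      _ = 1 := by rw [p6_three ι σ r hm, p6_three' ι σ r hm, one_mul]
  · intro g hg hgR
    refine hHC (J := {j, j'}) (g0_mem σ) (M := M6 ι σ j j') (M6_le ι σ) ?_ hPQ hgQ g hg ?_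
    · intro g hg l hl x hx
      rw [Finset.mem_insert, Finset.mem_singleton, not_or] at hl
      exact M6_comm ι σ r hm hl.1 hl.2 hx g hg
    · intro y hy
      have h3 : Q ≤ centralizer {g} := by
        refine (closure_le _).2 ?_
        rintro _ ⟨i, rfl⟩
        refine mem_centralizer_iff.2 ?_
        rintro _ rfl
        exact hgR i
      exact (mem_centralizer_iff.1 (h3 hy)) g rfl

end

/-- **(V6)** -/
theorem stmtV6 (𝕜 : Type v) [Field 𝕜] : StmtV6 𝕜 := by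
  intro F _ _ _ a m ι σ hm hHC j j' hj
  exact tcj6 ι σ 5 hm hHC hj

end Vale.Agent.P240.R2.H667.V6
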