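import Vale.Agent.P240.R2.H667.T5b
import Vale.Agent.P240.R2.H938.LocI

/-!
`LocTopF` at the prime `2` for the groups `PΩ(V)`, nonsquare discriminant, over the field with five
elements: the assembly.
-/

set_option autoImplicit false
set_option linter.all false

namespace Vale.Agent.P240.R2.H667

open Matrix Vale.Agent.P240.R2.AS Vale.Agent.P240.R2.H38 Vale.Agent.P240.K
open Vale.Agent.P240.R2.H145.EO (B ac OD Big Ker)
open Vale.Agent.P240.R2.H401.D
open Vale.Agent.P240.R2.H275 (fd_ne fd_one)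
open Vale.Agent.P240.R2.H938 (TC)
open Vale.Agent.P240.R2.H487 (LocTopF)
open scoped Classical

universe u v w

section
variable {K : Type u} [Field K] [Fintype K] {m : ℕ} {d : K} {G : Type v} [Group G]

/-- the action of the reflection in the first coordinate -/
lemma act_of (hN : N5 K m d) {ε : SD (fd m d) →* G} {e : G} (he2 : e ^ 2 = 1)
    (hact : ∀ s : ↥(OD (fd m d)), s.1.1 = diagonal (fun i => if i = 0 then -1 else 1) →
      ∀ h : SD (fd m d), e * ε h * e⁻¹ = ε (cjD s h)) : AE ε e := by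
  have h2 := two_ne5 hN.fcard
  have hd0 := hN.dne
  refine ⟨by rw [← pow_two, he2], fun g hg => ?_⟩
  have hs : (⟨rr (fd m d) (e0 K m), rr_mem _⟩ : ↥(OD (fd m d))).1.1 =
      diagonal (fun i => if i = 0 then -1 else 1) := rr_single h2 (fd_ne hd0 0)
  have h3 := hact ⟨rr (fd m d) (e0 K m), rr_mem _⟩ hs ⟨g, hg⟩
  have h4 : (cjD ⟨rr (fd m d) (e0 K m), rr_mem _⟩ ⟨g, hg⟩ : SD (fd m d)).1 =
      rr (fd m d) (e0 K m) * g * rr (fd m d) (e0 K m) := by
    rw [cjD_coe]
    show rr (fd m d) (e0 K m) * g * (rr (fd m d) (e0 K m))⁻¹ = _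
    rw [rr_inv]
  have h5 : rr (fd m d) (e0 K m) * g * rr (fd m d) (e0 K m) ∈ SD (fd m d) := by
    rw [← h4]
    exact (cjD ⟨rr (fd m d) (e0 K m), rr_mem _⟩ ⟨g, hg⟩ : SD (fd m d)).2
  refine ⟨h5, ?_⟩
  rw [et_pos hg, et_pos h5, ← mul_inv_eq_iff_eq_mul, h3]
  congr 1
  exact Subtype.ext h4

/-- the elements of `SD` that commute with the reflection -/
lemma comm_of {ε : SD (fd m d) →* G} {e : G} (he : AE ε e) {g : GL (Fin (m + 1)) K}
    (hg : g ∈ SD (fd m d)) (hc : g * rr (fd m d) (e0 K m) = rr (fd m d) (e0 K m) * g) :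
    e * et ε g = et ε g * e := by
  obtain ⟨-, h⟩ := he.2 g hg
  rw [h, ← hc, mul_assoc, rr_sq, mul_one]

end

/-- **The assembly.** -/
theorem stmtD5_of (hSem : StmtDSem5.{u, v}) (hDC : StmtDC5.{u, v}) : StmtD5.{u, v, w} := by
  intro K _ _ m d hE G _ _ L he 𝕜 _
  obtain ⟨e₀⟩ := he
  obtain ⟨ε, hε⟩ := hSem K m d hE G L e₀
  have hm := hE.hm
  have hM : L ⊔ Subgroup.centralizer (L : Set G) ≤ Subgroup.normalizer (L : Set G) := by
    refine sup_le Subgroup.le_normalizer ?_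
    intro x hx
    rw [Subgroup.mem_normalizer_iff]
    have hx' : ∀ l ∈ L, l * x = x * l := fun l hl => Subgroup.mem_centralizer_iff.1 hx l hl
    intro l
    constructor
    · intro hl
      have h1 : x * l * x⁻¹ = l := by rw [← hx' l hl]; group
      rwa [h1]
    · intro hl
      have h1 := hx' _ hl
      have h2 : l = x * l * x⁻¹ := by
        have h3 : x * l * x⁻¹ * x = x * (x * l * x⁻¹) := h1
        have h4 : x * l = x * (x * l * x⁻¹) := by rw [← h3]; group
        exact mul_left_cancel h4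
      rw [h2]
      exact hl
  obtain ⟨-, hA, hZ, hC, hF1, hact⟩ := hDC K m d hE G L ε hε
  have hab : ∀ a ∈ Ad ε 1, a ^ 2 = 1 ∧ a ∈ L := by
    intro a ha
    obtain ⟨h1, h2, -⟩ := hA 1
    exact ⟨h2.2.2 a ha, h1 ha⟩
  have key : ∀ e ∈ Subgroup.normalizer (L : Set G), e ∉ L ⊔ Subgroup.centralizer (L : Set G) →
      e ^ 2 = 1 → (∀ a ∈ Ad ε 1, e * a = a * e) →
      ∃ a ∈ Ad ε 1, AE ε (e * a) ∧ (e * a) ^ 2 = 1 ∧
        L ⊔ Subgroup.zpowers (e * a) = L ⊔ Subgroup.zpowers e ∧ (e * a) * e⁻¹ ∈ L ∧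
        ∀ c ∈ Ad ε 1, (e * a) * c = c * (e * a) := by
    intro e heQ heM he2 hec
    obtain ⟨a, ha, h1⟩ := hact e heQ heM he2 hec
    obtain ⟨ha2, haL⟩ := hab a ha
    have h3 : (e * a) ^ 2 = 1 := by
      have hc : Commute e a := hec a ha
      rw [hc.mul_pow, he2, ha2, one_mul]
    refine ⟨a, ha, act_of hE h3 h1, h3, ?_, ?_, ?_⟩
    · apply le_antisymm
      · refine sup_le le_sup_left ?_
        rw [Subgroup.zpowers_le]
        exact Subgroup.mul_mem _ (Subgroup.mem_sup_right (Subgroup.mem_zpowers e))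
          (Subgroup.mem_sup_left haL)
      · refine sup_le le_sup_left ?_
        rw [Subgroup.zpowers_le]
        have h2 : (e * a) * a⁻¹ = e := by group
        have h3 : (e * a) * a⁻¹ ∈ L ⊔ Subgroup.zpowers (e * a) :=
          Subgroup.mul_mem _ (Subgroup.mem_sup_right (Subgroup.mem_zpowers _))
            (Subgroup.mem_sup_left (L.inv_mem haL))
        rwa [h2] at h3
    · rw [hec a ha, mul_inv_cancel_right]
      exact haL
    · intro c hc
      have h4 : a * c = c * a := by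
        obtain ⟨g, ⟨c1, hc1, hg⟩, rfl⟩ := mem_Ad1.1 ha
        obtain ⟨g', ⟨c2, hc2, hg'⟩, rfl⟩ := mem_Ad1.1 hc
        rw [← map_mul, ← map_mul]
        congr 1
        apply Subtype.ext
        apply Units.ext
        show g.1.1 * g'.1.1 = g'.1.1 * g.1.1
        rw [hg, hg', diagonal_mul_diagonal, diagonal_mul_diagonal]
        congr 1
        funext i
        ring
      rw [mul_assoc, h4, ← mul_assoc, hec c hc, mul_assoc]
  have hnot : ∀ {P : Prop} {t : G}, t ∈ Subgroup.normalizer (L : Set G) →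
      t ∉ Subgroup.normalizer (L : Set G) → P := fun h1 h2 => absurd h1 h2
  refine H938.locTopF_of2 𝕜 (Q := Subgroup.normalizer (L : Set G)) (𝒜 := {Ad ε 1})
    (N := 2 ^ (m - 1)) hM le_rfl
    ⟨_, rfl⟩ ?_ hZ ?_ ?_ ?_ ?_ ?_ ?_ ?_ ?_ ?_ ?_ ?_ ?_
  · rintro _ rfl
    exact hA 1
  · -- hC
    rintro _ rfl l hl hlp hlc
    exact hC l hl hlp hlc
  · -- hF1
    rintro _ rfl e he x hx hep hxp hex hec hxc heM
    exact hF1 e he x hx hep hxp hex hec hxc heM
  · rintro _ rfl t ht x hx htp hxp htx htc hxc htQ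
    exact absurd ht htQ
  · -- T1
    exact ⟨_, rfl, top_e hE hε L (fun g _ _ => et_mem hε g) 𝕜⟩
  · -- Te
    rintro _ rfl e heQ heM he2 hec
    obtain ⟨a, ha, hae, -, -, -, hcm⟩ := key e heQ heM he2 hec
    refine ⟨a, ha, _, rfl, hcm, top_e hE hε _ (fun g hg hgc => ?_) 𝕜⟩
    refine Subgroup.mem_inf.2 ⟨et_mem hε g, Subgroup.mem_centralizer_iff.2 ?_⟩
    rintro _ rfl
    exact comm_of hae hg hgc
  · rintro _ rfl t htN htQ
    exact absurd htN htQ
  · rintro _ rfl e heQ heM he2 hec t htN htQ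
    exact absurd htN htQ
  · -- Se
    rintro _ rfl e heQ heM he2 hec
    obtain ⟨a, ha, hae, he2', h3, h4, hcm⟩ := key e heQ heM he2 hec
    refine ⟨_, rfl, e * a, h4, he2', hcm, ?_⟩
    rw [← h3]
    exact top_s hE hε hae 𝕜
  · rintro _ rfl e heQ heM he2 hec t htN htQ
    exact absurd htN htQ
  · rintro _ rfl t htN htQ
    exact absurd htN htQ
  · rintro _ rfl e heQ heM he2 hec t htN htQ
    exact absurd htN htQ
  · rintro _ rfl e heQ heM he2 hec t htN htQ
    exact absurd htN htQ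

end Vale.Agent.P240.R2.H667
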