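import Vale.Agent.P240.R2.H275.DF

/-!
The even orthogonal groups over the field with five elements: the scalar isometries, the center,
the determinant on `SD a`, and the isometries that commute with `SD a` up to scalars.
-/

set_option autoImplicit false
set_option linter.all false

namespace Vale.Agent.P240.R2.H667

open Matrix
open Vale.Agent.P240.R2.H145.EO
open Vale.Agent.P240.R2.H401.D
open Vale.Agent.P240.R2.H275 (four_lin SD_eq)
open scoped Classical

universe u v

section
variable {K : Type u} [Field K]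

/-- the field with five elements -/
lemma exists_e5 [Fintype K] (h5 : Fintype.card K = 5) : Nonempty (K ≃+* ZMod 5) :=
  ⟨(ZMod.ringEquivOfPrime K (by norm_num : Nat.Prime 5) h5).symm⟩

lemma two_ne5 [Fintype K] (h5 : Fintype.card K = 5) : (2 : K) ≠ 0 := by
  obtain ⟨e⟩ := exists_e5 h5
  intro h
  have h1 := congrArg e h
  rw [map_ofNat, map_zero] at h1
  exact absurd h1 (by decide)

lemma three_ne5 [Fintype K] (h5 : Fintype.card K = 5) : (3 : K) ≠ 0 := by
  obtain ⟨e⟩ := exists_e5 h5
  intro h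
  have h1 := congrArg e h
  rw [map_ofNat, map_zero] at h1
  exact absurd h1 (by decide)

lemma five_eq [Fintype K] (h5 : Fintype.card K = 5) : (5 : K) = 0 := by
  obtain ⟨e⟩ := exists_e5 h5
  apply e.injective
  rw [map_ofNat, map_zero]
  decide

/-- points of the quadric -/
lemma exists_pt5 [Fintype K] (h5 : Fintype.card K = 5) {t : K} (ht : t ≠ 0) :
    ∃ α β γ : K, α ≠ 0 ∧ γ ≠ 0 ∧ α * α + β * β + t * (γ * γ) = 1 := by
  obtain ⟨e⟩ := exists_e5 h5
  have h1 : ∀ t : ZMod 5, t ≠ 0 → ∃ α β γ : ZMod 5, α ≠ 0 ∧ γ ≠ 0 ∧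
      α * α + β * β + t * (γ * γ) = 1 := by decide +kernel
  obtain ⟨α, β, γ, h2, h3, h4⟩ := h1 (e t) (by simpa using ht)
  refine ⟨e.symm α, e.symm β, e.symm γ, by simpa using h2, by simpa using h3, ?_⟩
  apply e.injective
  simp only [map_add, map_mul, RingEquiv.apply_symm_apply, map_one]
  exact h4

variable {n : ℕ} {a : Fin n → K}

/-- linear maps for which all unit vectors are eigenvectors -/
theorem scal5 [Fintype K] (h5 : Fintype.card K = 5) (hn : 4 ≤ n) (ha : ∀ i, a i ≠ 0)
    (ha1 : ∀ i : Fin n, i.val + 1 < n → a i = 1) {T : Matrix (Fin n) (Fin n) K}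
    (hT : ∀ y, B a y y = 1 → ∃ c : K, T *ᵥ y = c • y) :
    ∃ l : K, T = l • (1 : Matrix (Fin n) (Fin n) K) := by
  have h2 := two_ne5 h5
  have h50 := five_eq h5
  let i0 : Fin n := ⟨0, by omega⟩
  have h0 : i0.val + 1 < n := by show 0 + 1 < n; omega
  -- unit vectors of the frame
  have hu : ∀ i : Fin n, i.val + 1 < n → B a (Pi.single i 1) (Pi.single i 1) = 1 := by
    intro i hi
    rw [B_e ha1 hi, Pi.single_eq_same]
  choose! c hc using hT
  -- three unit coordinates
  have h3 : ∀ i j k : Fin n, i.val + 1 < n → j.val + 1 < n → k.val + 1 < n → i ≠ j → i ≠ k →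
      j ≠ k → c (Pi.single i 1) = c (Pi.single j 1) := by
    intro i j k hi hj hk hij hik hjk
    have e1 : B a (Pi.single i 1 + Pi.single j 1 + (2 : K) • Pi.single k 1)
        (Pi.single i 1 + Pi.single j 1 + (2 : K) • Pi.single k 1) = 1 := by
      rw [B_add_left, B_add_left, B_smul_left, B_e ha1 hi, B_e ha1 hj, B_e ha1 hk]
      simp only [Pi.add_apply, Pi.smul_apply, Pi.single_eq_same, Pi.single_eq_of_ne hij,
        Pi.single_eq_of_ne hij.symm, Pi.single_eq_of_ne hik, Pi.single_eq_of_ne hik.symm,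
        Pi.single_eq_of_ne hjk, Pi.single_eq_of_ne hjk.symm, smul_eq_mul]
      linear_combination h50
    have e2 := hc _ e1
    rw [mulVec_add, mulVec_add, mulVec_smul, hc _ (hu i hi), hc _ (hu j hj), hc _ (hu k hk)] at e2
    have e3 := congrFun e2 i
    have e4 := congrFun e2 j
    simp only [Pi.add_apply, Pi.smul_apply, Pi.single_eq_same, Pi.single_eq_of_ne hij,
      Pi.single_eq_of_ne hij.symm, Pi.single_eq_of_ne hik, Pi.single_eq_of_ne hik.symm,
      Pi.single_eq_of_ne hjk, Pi.single_eq_of_ne hjk.symm, smul_eq_mul, mul_zero, mul_one,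
      add_zero, zero_add] at e3 e4
    rw [e3, e4]
  have hsame : ∀ i : Fin n, i.val + 1 < n → c (Pi.single i 1) = c (Pi.single i0 1) := by
    intro i hi
    by_cases hi0 : i = i0
    · rw [hi0]
    obtain ⟨k, hk, hki, hk0⟩ : ∃ k : Fin n, k.val + 1 < n ∧ i ≠ k ∧ i0 ≠ k := by
      by_cases h1 : i.val = 1
      · refine ⟨⟨2, by omega⟩, by show 2 + 1 < n; omega, ?_, ?_⟩
        · intro h; have := congrArg Fin.val h; simp only at this; omega
        · intro h; have := congrArg Fin.val h; simp only [i0] at this; omega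
      · refine ⟨⟨1, by omega⟩, by show 1 + 1 < n; omega, ?_, ?_⟩
        · intro h; have := congrArg Fin.val h; simp only at this; omega
        · intro h; have := congrArg Fin.val h; simp only [i0] at this; omega
    exact h3 i i0 k hi h0 hk hi0 hki hk0
  set l := c (Pi.single i0 1) with hl
  -- the last coordinate
  let il : Fin n := ⟨n - 1, by omega⟩
  let i1 : Fin n := ⟨1, by omega⟩
  have h1 : i1.val + 1 < n := by show 1 + 1 < n; omega
  have hil0 : il ≠ i0 := by
    intro h; have := congrArg Fin.val h; simp only [il, i0] at this; omega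
  have hil1 : il ≠ i1 := by
    intro h; have := congrArg Fin.val h; simp only [il, i1] at this; omega
  have h01 : i0 ≠ i1 := by simp [i0, i1]
  obtain ⟨α, β, γ, hα, hγ, hq⟩ := exists_pt5 h5 (ha il)
  have hw : ∀ s : K, s * s = 1 → B a ((s * α) • Pi.single i0 1 + β • Pi.single i1 1 +
      γ • Pi.single il 1) ((s * α) • Pi.single i0 1 + β • Pi.single i1 1 + γ • Pi.single il 1) =
      1 := by
    intro s hs
    rw [B_add_left, B_add_left, B_smul_left, B_smul_left, B_smul_left, B_e ha1 h0, B_e ha1 h1,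
      B_single]
    simp only [Pi.add_apply, Pi.smul_apply, Pi.single_eq_same, Pi.single_eq_of_ne h01,
      Pi.single_eq_of_ne h01.symm, Pi.single_eq_of_ne hil0, Pi.single_eq_of_ne hil0.symm,
      Pi.single_eq_of_ne hil1, Pi.single_eq_of_ne hil1.symm, smul_eq_mul]
    linear_combination hq + α * α * hs
  have hTw : ∀ s : K, s * s = 1 → ∃ c' : K, γ • (T *ᵥ Pi.single il 1) =
      (c' - l) • ((s * α) • Pi.single i0 1 + β • Pi.single i1 1) + (c' * γ) • Pi.single il 1 := by
    intro s hs
    have e1 := hc _ (hw s hs)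
    refine ⟨c ((s * α) • Pi.single i0 1 + β • Pi.single i1 1 + γ • Pi.single il 1), ?_⟩
    rw [mulVec_add, mulVec_add, mulVec_smul, mulVec_smul, mulVec_smul, hc _ (hu i0 h0),
      hc _ (hu i1 h1), hsame i1 h1, ← hl] at e1
    have e2 : γ • (T *ᵥ Pi.single il 1) = ((s * α) • (l • Pi.single i0 1) +
        β • (l • Pi.single i1 1) + γ • (T *ᵥ Pi.single il 1)) -
        ((s * α) • (l • Pi.single i0 1) + β • (l • Pi.single i1 1)) := by abel
    rw [e2, e1]
    module
  obtain ⟨c1, hc1⟩ := hTw 1 (by ring)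
  obtain ⟨c2, hc2⟩ := hTw (-1) (by ring)
  have hc12 := hc1.symm.trans hc2
  have f1 := congrFun hc12 il
  have f2 := congrFun hc12 i0
  simp only [Pi.add_apply, Pi.smul_apply, Pi.single_eq_same, Pi.single_eq_of_ne h01,
    Pi.single_eq_of_ne h01.symm, Pi.single_eq_of_ne hil0, Pi.single_eq_of_ne hil0.symm,
    Pi.single_eq_of_ne hil1, Pi.single_eq_of_ne hil1.symm, smul_eq_mul, mul_zero, add_zero,
    mul_one, zero_add] at f1 f2
  have f3 : c1 = c2 := mul_right_cancel₀ hγ f1
  rw [← f3] at f2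
  have f4 : (c1 - l) = 0 := by
    have f5 : (2 * α) * (c1 - l) = 0 := by linear_combination f2
    exact (mul_eq_zero.1 f5).resolve_left (mul_ne_zero h2 hα)
  have f5 : T *ᵥ Pi.single il 1 = l • Pi.single il 1 := by
    rw [f4, zero_smul, zero_add, sub_eq_zero.1 f4, mul_comm, mul_smul] at hc1
    exact smul_right_injective _ hγ hc1
  refine ⟨l, ?_⟩
  apply Matrix.ext_of_mulVec_single
  intro i
  rw [smul_mulVec, one_mulVec]
  by_cases hi : i.val + 1 < n
  · rw [hc _ (hu i hi), hsame i hi]
  · have hi' : i = il := by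
      apply Fin.ext
      show i.val = n - 1
      have := i.2
      omega
    rw [hi']
    exact f5

/-- the centre of the orthogonal group -/
lemma mem_center5 [Fintype K] (h5 : Fintype.card K = 5) (hn : 4 ≤ n)
    (ha : ∀ i, a i ≠ 0) (ha1 : ∀ i : Fin n, i.val + 1 < n → a i = 1) (g : OD a) :
    g ∈ Subgroup.center ↥(OD a) ↔ ∃ l : K, g.1.1 = l • (1 : Matrix (Fin n) (Fin n) K) := by
  have h2 := two_ne5 h5
  constructor
  · intro h
    rw [Subgroup.mem_center_iff] at h
    refine scal5 h5 hn ha ha1 fun y hy => ?_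
    have hy0 : B a y y ≠ 0 := by rw [hy]; exact one_ne_zero
    have hgy : B a (ac g.1 y) (ac g.1 y) = 1 := by rw [OD_B g.2, hy]
    have hgy0 : B a (ac g.1 y) (ac g.1 y) ≠ 0 := by rw [hgy]; exact one_ne_zero
    have h1 := congrArg Subtype.val (h ⟨rf a y hy0, rf_mem hy0⟩)
    have h3 : g.1 * rf a y hy0 * g.1⁻¹ = rf a y hy0 := by
      have h4 : rf a y hy0 * g.1 = g.1 * rf a y hy0 := h1
      rw [← h4, mul_inv_cancel_right]
    rw [rf_conj g.2 hy0 hgy0 (Or.inl rfl)] at h3
    have h5 := congrArg (fun k => ac k (ac g.1 y)) h3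
    simp only [ac_rf, hy, hgy, div_one] at h5
    refine ⟨B a y (ac g.1 y), ?_⟩
    show ac g.1 y = _
    have h7 : (2 : K) • ac g.1 y = (2 : K) • (B a y (ac g.1 y) • y) := by
      have h8 : (2 : K) • ac g.1 y = ac g.1 y - (ac g.1 y - (2 * 1 : K) • ac g.1 y) := by module
      rw [h8, h5]
      module
    exact smul_right_injective _ h2 h7
  · rintro ⟨l, hl⟩
    rw [Subgroup.mem_center_iff]
    intro k
    apply Subtype.ext
    apply Units.ext
    show k.1.1 * g.1.1 = g.1.1 * k.1.1
    rw [hl, mul_smul_comm, smul_mul_assoc, mul_one, one_mul]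

/-- the determinant is `1` on `SD a`, `n` even -/
theorem det_SD5 [Fintype K] (h5 : Fintype.card K = 5)
    (hn : 4 ≤ n) (hne : Even n) (ha : ∀ i, a i ≠ 0) (ha1 : ∀ i : Fin n, i.val + 1 < n → a i = 1)
    {g : GL (Fin n) K} (hg : g ∈ SD a) : g.1.det = 1 := by
  let D : ↥(OD a) →* Kˣ := (Matrix.GeneralLinearGroup.det).comp (OD a).subtype
  have h1 : Subgroup.center ↥(OD a) ≤ D.ker := by
    intro z hz
    obtain ⟨l, hl⟩ := (mem_center5 h5 hn ha ha1 z).1 hz
    rw [MonoidHom.mem_ker]
    apply Units.ext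
    show z.1.1.det = 1
    have i0 : Fin n := ⟨0, by omega⟩
    have h4 := OD_B z.2 (Pi.single i0 1) (Pi.single i0 1)
    have h6 : ac z.1 (Pi.single i0 1) = l • Pi.single i0 1 := by
      unfold ac
      rw [hl, smul_mulVec, one_mulVec]
    rw [h6, B_smul_left, B_smul_right, B_single, Pi.single_eq_same] at h4
    have h7 : l * l = 1 := by
      have h8 : a i0 * (l * l - 1) = 0 := by linear_combination h4
      exact sub_eq_zero.1 ((mul_eq_zero.1 h8).resolve_left (ha i0))
    rw [hl, det_smul, det_one, Fintype.card_fin, mul_one]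
    obtain ⟨k, hk⟩ := hne
    rw [hk, ← two_mul, pow_mul, pow_two, h7, one_pow]
  let f : PO a →* Kˣ := QuotientGroup.lift _ D h1
  have h3 := Abelianization.commutator_subset_ker f
  obtain ⟨hO, h4⟩ := mem_SOD.1 hg
  have h6 := h3 h4
  rw [MonoidHom.mem_ker] at h6
  have h7 : D ⟨g, hO⟩ = 1 := h6
  exact congrArg Units.val h7

/-- an isometry that commutes with `SD a` up to scalars is a scalar -/
theorem uniqD5 [Fintype K] (h5 : Fintype.card K = 5)
    (hn : 5 ≤ n) (ha : ∀ i, a i ≠ 0) (ha1 : ∀ i : Fin n, i.val + 1 < n → a i = 1)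
    {u : GL (Fin n) K} (hu : u ∈ OD a)
    (h : ∀ k ∈ SD a, ∃ l : K, u.1 * k.1 = l • (k.1 * u.1)) :
    ∃ l : K, u.1 = l • (1 : Matrix (Fin n) (Fin n) K) := by
  have h2 := two_ne5 h5
  have key : ∀ y z : Fin n → K, B a y y = 1 → B a z z = 1 → B a y z = 0 →
      ac u y = B a y (ac u y) • y + B a z (ac u y) • z := by
    intro y z hy hz hyz
    have hy0 : B a y y ≠ 0 := by rw [hy]; exact one_ne_zero
    have hz0 : B a z z ≠ 0 := by rw [hz]; exact one_ne_zero
    have huy : B a (ac u y) (ac u y) = 1 := by rw [OD_B hu, hy]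
    have huz : B a (ac u z) (ac u z) = 1 := by rw [OD_B hu, hz]
    have huyz : B a (ac u y) (ac u z) = 0 := by rw [OD_B hu, hyz]
    have huy0 : B a (ac u y) (ac u y) ≠ 0 := by rw [huy]; exact one_ne_zero
    have huz0 : B a (ac u z) (ac u z) ≠ 0 := by rw [huz]; exact one_ne_zero
    obtain ⟨l, hl⟩ := h (rf a y hy0 * rf a z hz0) (SOD_big h2 _ _ _ _ (by rw [hy, hz]))
    -- u k = l k u, as maps
    have hk : ∀ v, ac (rf a y hy0 * rf a z hz0) v = v - (2 * B a z v) • z - (2 * B a y v) • y := by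
      intro v
      rw [ac_mul, ac_rf, ac_rf, hy, hz, div_one, div_one, B_sub_right, B_smul_right, hyz, mul_zero,
        sub_zero]
    have hk' : ∀ v, ac (rf a _ huy0 * rf a _ huz0) v =
        v - (2 * B a (ac u z) v) • ac u z - (2 * B a (ac u y) v) • ac u y := by
      intro v
      rw [ac_mul, ac_rf, ac_rf, huy, huz, div_one, div_one, B_sub_right, B_smul_right, huyz,
        mul_zero, sub_zero]
    have hconj : u * (rf a y hy0 * rf a z hz0) = (rf a _ huy0 * rf a _ huz0) * u := by
      rw [← rf_conj hu hy0 huy0 (Or.inl rfl), ← rf_conj hu hz0 huz0 (Or.inl rfl)]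
      group
    have hl' : ∀ v, ac (rf a _ huy0 * rf a _ huz0) v = l • ac (rf a y hy0 * rf a z hz0) v := by
      intro v
      have e1 : (rf a _ huy0 * rf a _ huz0).1 = l • (rf a y hy0 * rf a z hz0).1 := by
        have e2 : (rf a _ huy0 * rf a _ huz0).1 * u.1 = l • ((rf a y hy0 * rf a z hz0).1 * u.1) := by
          rw [← hl]
          exact (congrArg Units.val hconj).symm
        have e3 := congrArg (fun M => M * (u⁻¹).1) e2
        simp only [smul_mul_assoc] at e3
        rwa [_root_.mul_assoc, _root_.mul_assoc, Units.mul_inv, mul_one, mul_one] at e3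
      have e4 := congrArg (fun M => M *ᵥ v) e1
      simp only [smul_mulVec] at e4
      exact e4
    obtain ⟨v, hv0, hv1, hv2, hv3, hv4⟩ := four_lin hn (a * y) (a * z) (a * ac u y) (a * ac u z)
    have hl1 : l = 1 := by
      have e1 := hl' v
      have f1 : B a y v = 0 := hv1
      have f2 : B a z v = 0 := hv2
      have f3 : B a (ac u y) v = 0 := hv3
      have f4 : B a (ac u z) v = 0 := hv4
      rw [hk, hk', f1, f2, f3, f4, mul_zero, zero_smul, zero_smul, zero_smul, zero_smul, sub_zero,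
        sub_zero] at e1
      have e2 : (l - 1) • v = 0 := by
        rw [sub_smul, one_smul, ← e1, sub_self]
      rcases smul_eq_zero.1 e2 with e3 | e3
      · exact sub_eq_zero.1 e3
      · exact absurd e3 hv0
    have e1 := hl' (ac u y)
    rw [hl1, one_smul, hk, hk', B_comm (ac u z) (ac u y), huyz, huy, mul_zero, zero_smul, sub_zero,
      mul_one] at e1
    have e2 : (2 : K) • ac u y = (2 : K) • (B a y (ac u y) • y + B a z (ac u y) • z) := by
      have e3 : (2 : K) • ac u y = ac u y - (ac u y - (2 : K) • ac u y) := by module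
      rw [e3, e1]
      module
    exact smul_right_injective _ h2 e2
  refine scal5 h5 (by omega) ha ha1 fun y hy => ?_
  have hx1 : ON a (fun _ : Fin 1 => y) := by
    intro i j
    rw [hy, if_pos (Subsingleton.elim i j)]
  obtain ⟨z, hz1, hz2⟩ := perp1 h2 ha ha1 (k := 1) (by omega) hx1 (one_ne_zero (α := K))
  have hyz : B a y z = 0 := hz1 0
  have hx2 := hx1.snoc hz1 hz2
  obtain ⟨w, hw1, hw2⟩ := perp1 h2 ha ha1 (k := 2) (by omega) hx2 (one_ne_zero (α := K))
  have hyw : B a y w = 0 := by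
    have := hw1 (Fin.castSucc 0)
    rwa [Fin.snoc_castSucc] at this
  have hzw : B a z w = 0 := by
    have := hw1 (Fin.last 1)
    rwa [Fin.snoc_last] at this
  have k1 := key y z hy hz2 hyz
  have k2 := key y w hy hw2 hyw
  have hzu : B a z (ac u y) = 0 := by
    rw [k2, B_add_right, B_smul_right, B_smul_right, hzw, B_comm z y, hyz, mul_zero, mul_zero,
      add_zero]
  rw [hzu, zero_smul, add_zero] at k1
  exact ⟨_, k1⟩

end

end Vale.Agent.P240.R2.H667
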