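import Vale.Agent.P240.R2.H667.Defs5
import Vale.Agent.P240.R2.H667.DF5a

/-!
`StmtDF5`.
-/

set_option autoImplicit false
set_option linter.all false

namespace Vale.Agent.P240.R2.H667

open Matrix
open Vale.Agent.P240.R2.H145.EO
open Vale.Agent.P240.R2.H401.D
open Vale.Agent.P240.R2.H275 (fd_ne fd_one SD_eq diag_OD scal_mem diag_aux)
open scoped Classical

universe u v

section
variable {K : Type u} [Field K]

lemma N5.fcard [Fintype K] {m : ℕ} {d : K} (h : N5 K m d) : Fintype.card K = 5 := by
  rw [← Nat.card_eq_fintype_card]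
  exact h.card

lemma N5.dne {m : ℕ} {d : K} (h : N5 K m d) : d ≠ 0 := by
  rintro rfl
  exact h.ns ⟨0, by ring⟩

end

theorem stmtDF5 : StmtDF5.{u} := by
  intro K _ _ m d hK
  have h5 := hK.fcard
  have h2 : (2 : K) ≠ 0 := two_ne5 h5
  have hd : d ≠ 0 := hK.dne
  have hne : Even (m + 1) := hK.modd.add_one
  have hm := hK.hm
  have hdet : ∀ g ∈ SD (fd m d), g.1.det = 1 := fun g hg =>
    det_SD5 h5 (by omega) hne (fd_ne hd) fd_one hg
  refine ⟨SOD_big h2, fun c hc g hg => ⟨diag_OD hc hg, fun h => ?_, fun h => ?_⟩, hdet,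
    fun u hu h => uniqD5 h5 (by omega) (fd_ne hd) fd_one hu h⟩
  · have h1 := hdet g h
    rwa [hg, det_diagonal] at h1
  · by_cases hl : c (Fin.last m) = 1
    · exact diag_aux h2 _ c hc hl le_rfl h g hg
    · have hl' : c (Fin.last m) = -1 := by
        have h3 : (c (Fin.last m) - 1) * (c (Fin.last m) + 1) = 0 := by
          linear_combination hc (Fin.last m)
        exact eq_neg_of_add_eq_zero_left ((mul_eq_zero.1 h3).resolve_left (sub_ne_zero.2 hl))
      have hmO : (-1 : GL (Fin (m + 1)) K) ∈ SD (fd m d) := by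
        have h3 : (-1 : GL (Fin (m + 1)) K).1 = diagonal (fun _ => (-1 : K)) := by
          show -(1 : Matrix (Fin (m + 1)) (Fin (m + 1)) K) = _
          rw [← diagonal_one, diagonal_neg]
        refine scal_mem (diag_OD (fun _ => by ring) h3) (l := -1) ?_
        show -(1 : Matrix (Fin (m + 1)) (Fin (m + 1)) K) = _
        rw [neg_one_smul]
      have h4 : -g ∈ SD (fd m d) := by
        refine diag_aux h2 _ (fun i => -c i) (fun i => by rw [neg_sq]; exact hc i)
          (by show -c (Fin.last m) = 1; rw [hl', neg_neg]) le_rfl ?_ (-g) ?_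
        · rw [Finset.prod_neg, h, Finset.card_univ, Fintype.card_fin, hne.neg_one_pow, mul_one]
        · show -g.1 = _
          rw [hg, diagonal_neg]
      have h6 : g = (-1) * (-g) := by rw [neg_mul_neg, one_mul]
      rw [h6]
      exact mul_mem hmO h4

end Vale.Agent.P240.R2.H667
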