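import Vale.Agent.P240.R2.H401.DDefs

/-!
The even orthogonal groups `PΩ(V)`, `V` of dimension `n = m + 1` even with nonsquare discriminant,
form `diag(1, .., 1, d)`, over the field with five elements, at the prime `2`: statements.
The definitions are the ones of `H401.DDefs`.
-/

set_option autoImplicit false
set_option linter.all false

namespace Vale.Agent.P240.R2.H667

open Matrix Vale.Agent.P240.R2.AS Vale.Agent.P240.R2.H38 Vale.Agent.P240.K
open Vale.Agent.P240.R2.H145.EO (B ac OD Big Ker PM FE)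
open Vale.Agent.P240.R2.H938 (TC)
open Vale.Agent.P240.R2.H487 (LocTopF)
open Vale.Agent.P240.R2.H401.D (POD SD0 SD cjD TS Ad DHom fd)

universe u v w

/-- the hypotheses on the field and the dimension (`n = m + 1` even), `d` is not a square -/
structure N5 (K : Type u) [Field K] (m : ℕ) (d : K) : Prop where
  card : Nat.card K = 5
  modd : Odd m
  hm : 5 ≤ m
  ns : ¬ IsSquare d

/-- (EO5) `H145.EO.StmtEO` for the field with five elements -/
def StmtEO5 : Prop :=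
  ∀ (K : Type u) [Field K] [Fintype K], Fintype.card K = 5 → ∀ (n : ℕ), 6 ≤ n →
    ∀ (a : Fin n → K), (∀ i, a i ≠ 0) → (∀ i : Fin n, i.val + 1 < n → a i = 1) →
    ∀ (S : Subgroup (GL (Fin n) K)), Big a S → S ≤ OD a →
    ∀ (G : Type v) [Group G] (ε : S →* G), Ker ε → ∀ x : G,
    (∀ g, ∃ g', x * ε g * x⁻¹ = ε g') →
    (∀ (i j : Fin n) (s : S), i.val + 1 < n → j.val + 1 < n → i ≠ j →
      (∀ y, ac s.1 y = fun k => if k = i ∨ k = j then -y k else y k) → x * ε s = ε s * x) →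
    ∃ (c : Fin n → K), (∀ i, c i ^ 2 = 1) ∧
      ∀ g g' : S, (∀ i j, g'.1.1 i j * c j = c i * g.1.1 i j) → x * ε g * x⁻¹ = ε g'

/-- (EOF5) the map on the unit vectors, `H145.EO.StmtEOF` for the field with five elements -/
def StmtEOF5 : Prop :=
  ∀ (K : Type u) [Field K] [Fintype K], Fintype.card K = 5 → ∀ (n : ℕ), 6 ≤ n →
    ∀ (a : Fin n → K), (∀ i, a i ≠ 0) → (∀ i : Fin n, i.val + 1 < n → a i = 1) →
    ∀ (S : Subgroup (GL (Fin n) K)), Big a S → S ≤ OD a →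
    ∀ (G : Type v) [Group G] (ε : S →* G), Ker ε → ∀ x : G,
    (∀ g, ∃ g', x * ε g * x⁻¹ = ε g') →
    (∀ (i j : Fin n) (s : S), i.val + 1 < n → j.val + 1 < n → i ≠ j →
      (∀ y, ac s.1 y = fun k => if k = i ∨ k = j then -y k else y k) → x * ε s = ε s * x) →
    ∃ f τ, FE a ε x f τ

/-- (EOW5) Wigner's theorem for the form `diag(a)` over the field with five elements -/
def StmtEOW5 : Prop :=
  ∀ (K : Type u) [Field K] [Fintype K], Fintype.card K = 5 → ∀ (n : ℕ), 6 ≤ n →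
    ∀ (a : Fin n → K), (∀ i, a i ≠ 0) → (∀ i : Fin n, i.val + 1 < n → a i = 1) →
    ∀ (f : (Fin n → K) → Fin n → K),
    (∀ y, B a y y = 1 → B a (f y) (f y) = 1) →
    (∀ y z, B a y y = 1 → B a z z = 1 → B a (f y) (f z) ^ 2 = B a y z ^ 2) →
    (∀ i : Fin n, i.val + 1 < n → PM (Pi.single i 1) (f (Pi.single i 1))) →
    ∃ (c : Fin n → K), (∀ i, c i ^ 2 = 1) ∧ ∀ y, B a y y = 1 → PM (fun i => c i * y i) (f y)

/-- (DF5) facts on the group `SD` -/
def StmtDF5 : Prop :=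
  ∀ (K : Type u) [Field K] [Fintype K] (m : ℕ) (d : K), N5 K m d →
    Big (fd m d) (SD (fd m d)) ∧
    (∀ (c : Fin (m + 1) → K), (∀ i, c i ^ 2 = 1) → ∀ g : GL (Fin (m + 1)) K, g.1 = diagonal c →
      g ∈ OD (fd m d) ∧ (g ∈ SD (fd m d) ↔ ∏ i, c i = 1)) ∧
    (∀ g ∈ SD (fd m d), g.1.det = 1) ∧
    (∀ u ∈ OD (fd m d), (∀ k ∈ SD (fd m d), ∃ l : K, u.1 * k.1 = l • (k.1 * u.1)) →
      ∃ l : K, u.1 = l • (1 : Matrix (Fin (m + 1)) (Fin (m + 1)) K))

/-- (DSem5) the homomorphism -/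
def StmtDSem5 : Prop :=
  ∀ (K : Type u) [Field K] [Fintype K] (m : ℕ) (d : K), N5 K m d →
    ∀ (G : Type v) [Group G] [Finite G] (L : Subgroup G) (e : commutator (POD (fd m d)) ≃* L),
    ∃ ε : SD (fd m d) →* G, DHom L ε

/-- (DC5) coordinates -/
def StmtDC5 : Prop :=
  ∀ (K : Type u) [Field K] [Fintype K] (m : ℕ) (d : K), N5 K m d →
    ∀ (G : Type v) [Group G] [Finite G] (L : Subgroup G) (ε : SD (fd m d) →* G), DHom L ε →
    -- change of coordinates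
    (∀ u : ↥(OD (fd m d)), DHom L (ε.comp (cjD u)) ∧
      (∀ u', Ad (ε.comp (cjD u)) u' = Ad ε (u * u'))) ∧
    -- the groups `Ad`
    (∀ u : ↥(OD (fd m d)), Ad ε u ≤ L ∧ Ad ε u ∈ ApS 2 G ∧ Nat.card (Ad ε u) = 2 ^ (m - 1)) ∧
    L ⊓ Subgroup.centralizer (L : Set G) = ⊥ ∧
    (∀ l ∈ L, l ^ 2 = 1 → (∀ y ∈ Ad ε 1, l * y = y * l) → l ∈ Ad ε 1) ∧
    -- hF1
    (∀ e ∈ Subgroup.normalizer (L : Set G), ∀ x ∈ Subgroup.normalizer (L : Set G), e ^ 2 = 1 →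
      x ^ 2 = 1 → e * x = x * e →
      (∀ a ∈ Ad ε 1, e * a = a * e) → (∀ a ∈ Ad ε 1, x * a = a * x) →
      e ∉ L ⊔ Subgroup.centralizer (L : Set G) →
      ∃ k : ℕ, x * e ^ k ∈ L ⊔ Subgroup.centralizer (L : Set G)) ∧
    -- the literal form of `e`: the reflection in the first coordinate
    (∀ e ∈ Subgroup.normalizer (L : Set G), e ∉ L ⊔ Subgroup.centralizer (L : Set G) → e ^ 2 = 1 →
      (∀ a ∈ Ad ε 1, e * a = a * e) →
      ∃ a ∈ Ad ε 1, ∀ s : ↥(OD (fd m d)),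
        s.1.1 = diagonal (fun i => if i = 0 then -1 else 1) →
        ∀ h : SD (fd m d), (e * a) * ε h * (e * a)⁻¹ = ε (cjD s h))

/-- (DII5) the top cycle with the reflection -/
def StmtDII5 : Prop :=
  ∀ (K : Type u) [Field K] [Fintype K] (m : ℕ) (d : K), N5 K m d →
    ∀ (G : Type v) [Group G] [Finite G] (L : Subgroup G) (ε : SD (fd m d) →* G), DHom L ε →
    ∀ (𝕜 : Type w) [Field 𝕜] (e : G), e ^ 2 = 1 → e ∉ L →
    (∀ s : ↥(OD (fd m d)), s.1.1 = diagonal (fun i => if i = 0 then -1 else 1) →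
      ∀ h : SD (fd m d), e * ε h * e⁻¹ = ε (cjD s h)) →
    ∃ (u : ↥(OD (fd m d))) (e' : G), e' * e⁻¹ ∈ L ∧ e' ^ 2 = 1 ∧ (∀ a ∈ Ad ε u, e' * a = a * e') ∧
      TC 𝕜 2 (L ⊔ Subgroup.zpowers e) (Ad ε u ⊔ Subgroup.zpowers e')

/-- the result -/
def StmtD5 : Prop :=
  ∀ (K : Type u) [Field K] [Fintype K] (m : ℕ) (d : K), N5 K m d →
    ∀ (G : Type v) [Group G] [Finite G] (L : Subgroup G),
    Nonempty (commutator (POD (fd m d)) ≃* L) → ∀ (𝕜 : Type w) [Field 𝕜], LocTopF 𝕜 2 L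

end Vale.Agent.P240.R2.H667
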