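import Vale.Agent.P240.R2.H667.Sem5
import Vale.Agent.P240.R2.H584.DC5
import Vale.Agent.P240.R2.H487.TF

/-!
`PΩ(V)`, `dim V = m + 1 ≥ 6` even, the discriminant not a square, `q = 5`: `TopFac` at the prime `2`.
-/

set_option autoImplicit false
set_option linter.all false

namespace Vale.Agent.P240.R2.H667

open Vale.Agent.P240.R2.H401.D (fd POD)
open Vale.Agent.P240.R2.H487 (TopFac)

universe u v w

theorem stmtD5 : StmtD5.{u, v, w} := stmtD5_of (dsem5 stmtEO5 stmtDF5) (H584.DC5.dc5 stmtDF5)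

/-- every group isomorphic to `PΩ(V)`, `dim V = m + 1 ≥ 6` even, the discriminant not a square,
`q = 5`, is a top factor at the prime `2` -/
theorem topFac_D5 {K : Type} [Field K]
    [Fintype K] {m : ℕ} {d : K} (𝕜 : Type w) [Field 𝕜] (h5 : Nat.card K = 5) (ho : Odd m)
    (hm : 5 ≤ m) (hd : ¬ IsSquare d) {L : Type v} [Group L]
    (e : L ≃* ↥(commutator (POD (fd m d)))) : TopFac 𝕜 2 L :=
  fun _ _ _ _ ⟨f⟩ => stmtD5 K m d ⟨h5, ho, hm, hd⟩ _ _ ⟨e.symm.trans f⟩ 𝕜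

end Vale.Agent.P240.R2.H667
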