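import Vale.Agent.P240.R2.H667.DF5
import Vale.Agent.P240.R2.H490.P5Geo

/-!
Reflections of a diagonal form: the relations.
-/

set_option autoImplicit false
set_option linter.all false

namespace Vale.Agent.P240.R2.H667

open Matrix
open Vale.Agent.P240.R2.H145.EO
open Vale.Agent.P240.R2.H401.D
open Vale.Agent.P240.R2.H275 (four_lin)
open Vale.Agent.P240.R2.H490 (ip pj Lt Sm Sm_nil Sm_cons pj_mulVec pj_idem pj_eq pj_mul_eq_zero mat_ext
  Sm_eq_one)
open scoped Classical

universe u v

section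
variable {K : Type u} [Field K] {n : ℕ} {a : Fin n → K}

lemma B_eq_ip (x y : Fin n → K) : B a x y = ip a x y := rfl

/-- the reflection in `x`, or `1` -/
noncomputable def rr (a : Fin n → K) (x : Fin n → K) : GL (Fin n) K :=
  if h : B a x x ≠ 0 then rf a x h else 1

lemma rr_pos {x : Fin n → K} (h : B a x x ≠ 0) : rr a x = rf a x h := dif_pos h

lemma rr_neg {x : Fin n → K} (h : ¬ B a x x ≠ 0) : rr a x = 1 := dif_neg h

lemma rr_val {x : Fin n → K} (h : B a x x ≠ 0) : (rr a x).1 = 1 - (2 : K) • pj a x := by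
  rw [rr_pos h]
  show rM a x = _
  rw [rM, pj, smul_smul, ← B_eq_ip, div_eq_mul_inv]
  rfl

lemma rr_mem (x : Fin n → K) : rr a x ∈ OD a := by
  by_cases h : B a x x ≠ 0
  · rw [rr_pos h]
    exact rf_mem h
  · rw [rr_neg h]
    exact one_mem _

lemma rr_sq (x : Fin n → K) : rr a x * rr a x = 1 := by
  by_cases h : B a x x ≠ 0
  · rw [rr_pos h]
    exact rf_rf h
  · rw [rr_neg h, one_mul]

lemma rr_inv (x : Fin n → K) : (rr a x)⁻¹ = rr a x := inv_eq_of_mul_eq_one_left (rr_sq x)

lemma rr_conj {g : GL (Fin n) K} (hg : g ∈ OD a) (x : Fin n → K) :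
    g * rr a x * g⁻¹ = rr a (ac g x) := by
  by_cases h : B a x x ≠ 0
  · have h' : B a (ac g x) (ac g x) ≠ 0 := by rwa [OD_B hg]
    rw [rr_pos h, rr_pos h']
    exact rf_conj hg h h' (Or.inl rfl)
  · have h' : ¬ B a (ac g x) (ac g x) ≠ 0 := by rwa [OD_B hg]
    rw [rr_neg h, rr_neg h', mul_one, mul_inv_cancel]

lemma rr_smul {c : K} (hc : c ≠ 0) (x : Fin n → K) : rr a (c • x) = rr a x := by
  have e : B a (c • x) (c • x) = c * (c * B a x x) := by rw [B_smul_left, B_smul_right]
  by_cases h : B a x x ≠ 0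
  · have h' : B a (c • x) (c • x) ≠ 0 := by
      rw [e]
      exact mul_ne_zero hc (mul_ne_zero hc h)
    apply Units.ext
    rw [rr_val h, rr_val h', H490.pj_smul a hc]
  · have h' : ¬ B a (c • x) (c • x) ≠ 0 := by
      rw [e, not_not.1 h]
      simp
    rw [rr_neg h, rr_neg h']

lemma ac_rr {x : Fin n → K} (h : B a x x ≠ 0) (y : Fin n → K) : ac (rr a x) y = H490.rf a x y := by
  rw [H490.rf_eq]
  show (rr a x).1 *ᵥ y = _
  rw [rr_val h]

lemma rr_cnj {x : Fin n → K} (h : B a x x ≠ 0) (y : Fin n → K) :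
    rr a x * rr a y * rr a x = rr a (H490.rf a x y) := by
  have h1 := rr_conj (rr_mem (a := a) x) y
  rw [rr_inv, ac_rr h] at h1
  exact h1

lemma rr_comm {x y : Fin n → K} (hxy : B a x y = 0) : rr a x * rr a y = rr a y * rr a x := by
  by_cases h : B a x x ≠ 0
  · have h1 := rr_cnj h y
    have h2 : H490.rf a x y = y := by
      rw [H490.rf, ← B_eq_ip x y, hxy, mul_zero, zero_smul, sub_zero]
    rw [h2] at h1
    calc rr a x * rr a y = rr a x * rr a y * (rr a x * rr a x) := by rw [rr_sq, mul_one]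
      _ = (rr a x * rr a y * rr a x) * rr a x := by group
      _ = rr a y * rr a x := by rw [h1]
  · rw [rr_neg h, one_mul, mul_one]

/-- the projections onto two orthogonal lines of a plane -/
lemma pj_plane {x y x' y' : Fin n → K} (hx : ip a x x ≠ 0) (hy : ip a y y ≠ 0)
    (hx' : ip a x' x' ≠ 0) (hy' : ip a y' y' ≠ 0) (hxy : ip a x y = 0) (hxy' : ip a x' y' = 0)
    (h1 : ∃ s t : K, x' = s • x + t • y) (h2 : ∃ s t : K, y' = s • x + t • y) :
    pj a x + pj a y = pj a x' + pj a y' := by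
  obtain ⟨s, t, rfl⟩ := h1
  obtain ⟨s', t', rfl⟩ := h2
  have hyx : ip a y x = 0 := by rw [H490.ip_comm]; exact hxy
  have e1 : ip a (s • x + t • y) (s • x + t • y) = s * s * ip a x x + t * t * ip a y y := by
    simp only [H490.ip_add_left, H490.ip_add_right, H490.ip_smul_left, H490.ip_smul_right, hxy, hyx]
    ring
  have e2 : ip a (s' • x + t' • y) (s' • x + t' • y) = s' * s' * ip a x x + t' * t' * ip a y y := by
    simp only [H490.ip_add_left, H490.ip_add_right, H490.ip_smul_left, H490.ip_smul_right, hxy, hyx]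
    ring
  have e3 : s * s' * ip a x x + t * t' * ip a y y = 0 := by
    rw [← hxy']
    simp only [H490.ip_add_left, H490.ip_add_right, H490.ip_smul_left, H490.ip_smul_right, hxy, hyx]
    ring
  refine mat_ext fun z => ?_
  rw [add_mulVec, add_mulVec, pj_mulVec, pj_mulVec, pj_mulVec, pj_mulVec, e1, e2]
  rw [e1] at hx'
  rw [e2] at hy'
  simp only [H490.ip_add_left, H490.ip_smul_left]
  set X := ip a x z
  set Y := ip a y z
  set p := ip a x x
  set q := ip a y y
  set P := s * s * p + t * t * q with hP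
  set Q := s' * s' * p + t' * t' * q with hQ
  have f1 : p⁻¹ * X = P⁻¹ * (s * X + t * Y) * s + Q⁻¹ * (s' * X + t' * Y) * s' := by
    field_simp
    rw [hP, hQ]
    linear_combination (-(X * (s * s' * p - t * t' * q)) - p * Y * (t * s' + s * t')) * e3
  have f2 : q⁻¹ * Y = P⁻¹ * (s * X + t * Y) * t + Q⁻¹ * (s' * X + t' * Y) * t' := by
    field_simp
    rw [hP, hQ]
    linear_combination (-(Y * (t * t' * q - s * s' * p)) - q * X * (t * s' + s * t')) * e3
  rw [f1, f2]
  module

lemma rr_mul_val {x y : Fin n → K} (hx : B a x x ≠ 0) (hy : B a y y ≠ 0) (hxy : B a x y = 0) :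
    (rr a x * rr a y).1 = 1 - (2 : K) • (pj a x + pj a y) := by
  show (rr a x).1 * (rr a y).1 = _
  rw [rr_val hx, rr_val hy, sub_mul, mul_sub, mul_sub, one_mul, one_mul, mul_one,
    smul_mul_smul_comm, (pj_mul_eq_zero a hx hy).2 hxy]
  module

lemma rr_plane {x y x' y' : Fin n → K} (hx : B a x x ≠ 0) (hy : B a y y ≠ 0)
    (hx' : B a x' x' ≠ 0) (hy' : B a y' y' ≠ 0) (hxy : B a x y = 0) (hxy' : B a x' y' = 0)
    (h1 : ∃ s t : K, x' = s • x + t • y) (h2 : ∃ s t : K, y' = s • x + t • y) :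
    rr a x * rr a y = rr a x' * rr a y' := by
  apply Units.ext
  rw [rr_mul_val hx hy hxy, rr_mul_val hx' hy' hxy', pj_plane hx hy hx' hy' hxy hxy' h1 h2]

lemma rr_inj (h2 : (2 : K) ≠ 0) (hn : 5 ≤ n) {x y : Fin n → K} (hx : B a x x ≠ 0)
    (hy : B a y y ≠ 0) {l : K} (h : (rr a x).1 = l • (rr a y).1) : ∃ c : K, y = c • x := by
  obtain ⟨v, hv0, hv1, hv2, -, -⟩ := four_lin hn (a * x) (a * y) (a * y) (a * y)
  have f1 : ip a x v = 0 := hv1
  have f2 : ip a y v = 0 := hv2
  have k1 : (rr a x).1 *ᵥ v = v := by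
    rw [rr_val hx, sub_mulVec, one_mulVec, smul_mulVec, pj_mulVec, f1, mul_zero, zero_smul,
      smul_zero, sub_zero]
  have k2 : (rr a y).1 *ᵥ v = v := by
    rw [rr_val hy, sub_mulVec, one_mulVec, smul_mulVec, pj_mulVec, f2, mul_zero, zero_smul,
      smul_zero, sub_zero]
  have hl : l = 1 := by
    rw [h, smul_mulVec, k2] at k1
    have e2 : (l - 1) • v = 0 := by
      rw [sub_smul, one_smul, k1, sub_self]
    rcases smul_eq_zero.1 e2 with e3 | e3
    · exact sub_eq_zero.1 e3
    · exact absurd e3 hv0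
  rw [hl, one_smul, rr_val hx, rr_val hy] at h
  have k3 : pj a x = pj a y := smul_right_injective _ h2 (sub_right_injective h)
  obtain ⟨c, -, hc⟩ := pj_eq a (x := x) (y := y) hy (by rw [k3, H490.pj_self a hy])
  exact ⟨c, hc⟩

/-- the product of the reflections of an orthogonal system -/
lemma rr_prod {w : List (Lt a)} (hw : w.Pairwise (fun P Q => P.v * Q.v = 0)) :
    ((w.map fun P => rr a P.x).prod).1 = 1 - (2 : K) • Sm Lt.v w := by
  induction w with
  | nil => simp
  | cons b w ih =>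
    have h1 := List.pairwise_cons.1 hw
    have h4 : ∀ w : List (Lt a), (∀ Q ∈ w, b.v * Q.v = 0) → b.v * Sm Lt.v w = 0 := by
      intro w
      induction w with
      | nil => intro _; rw [Sm_nil, mul_zero]
      | cons c w ih =>
        intro h
        rw [Sm_cons, mul_add, ih fun Q hQ => h Q (List.mem_cons_of_mem _ hQ), h c (by simp),
          zero_add]
    rw [List.map_cons, List.prod_cons]
    show (rr a b.x).1 * ((w.map fun P => rr a P.x).prod).1 = _
    rw [ih h1.2, rr_val b.hx, ← b.v_eq, Sm_cons, sub_mul, mul_sub, mul_sub, one_mul, one_mul,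
      mul_one, smul_mul_smul_comm, h4 w h1.1]
    module

/-- the product of the reflections of a frame -/
lemma rr_full {w : List (Lt a)} (hw : w.Pairwise (fun P Q => P.v * Q.v = 0)) (hn : w.length = n) :
    (w.map fun P => rr a P.x).prod = -1 := by
  apply Units.ext
  rw [rr_prod hw, Sm_eq_one hw hn, Units.val_neg, Units.val_one]
  module

lemma rr_single (h2 : (2 : K) ≠ 0) {i : Fin n} (hi : a i ≠ 0) :
    (rr a (Pi.single i 1)).1 = diagonal (fun k => if k = i then (-1 : K) else 1) := by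
  have hB : B a (Pi.single i 1) (Pi.single i 1) = a i := by
    rw [B_single, Pi.single_eq_same]; ring
  rw [rr_pos (by rw [hB]; exact hi)]
  apply Matrix.ext_of_mulVec_single
  intro t
  show ac (rf a _ _) (Pi.single t 1) = _
  rw [ac_rf, hB, B_single]
  funext k
  rw [mulVec_diagonal]
  simp only [Pi.sub_apply, Pi.smul_apply, smul_eq_mul, Pi.single_apply]
  by_cases hki : k = i
  · subst hki
    by_cases htk : k = t
    · subst htk
      simp
      field_simp
      ring
    · simp [htk]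
  · simp [hki]

end

end Vale.Agent.P240.R2.H667
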