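import Vale.Agent.P240.R2.H667.Asm5
import Vale.Agent.P240.R2.H306.S5
import Vale.Agent.P240.R2.H651.DSem

/-!
`StmtDSem5`: the homomorphism, and the action of the involutions of the normalizer.
-/

set_option autoImplicit false
set_option linter.all false

namespace Vale.Agent.P240.R2.H667

open Matrix
open Vale.Agent.P240.R2.H145.EO
open Vale.Agent.P240.R2.H401.D
open Vale.Agent.P240.R2.H275 (fd_ne fd_one)
open Vale.Agent.P240.R2.H651.DS (exists_hom cj_cj_inv cj_scal dg)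
open scoped Classical

universe u v w

theorem stmtEO5 : StmtEO5.{u, v} :=
  fun K _ _ h n hn a ha ha1 S hB hO G _ ε hk x hx hcom =>
    H306.eo5 h hn ha ha1 hB hO hk hx hcom

theorem dsem5 (hEO : StmtEO5.{u, v}) (hF : StmtDF5.{u}) : StmtDSem5.{u, v} := by
  intro K _ _ m d hK G _ _ L e
  obtain ⟨hBig, hdiag, hdet, hsc⟩ := hF K m d hK
  have h5 := hK.fcard
  have h2 : (2 : K) ≠ 0 := two_ne5 h5
  have hm := hK.hm
  have hd0 : d ≠ 0 := hK.dne
  obtain ⟨ε, hrange, hker, -⟩ := exists_hom hsc L e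
  refine ⟨ε, hrange, hker, ?_⟩
  intro u x hx hx2 hc
  set ε' : SD (fd m d) →* G := ε.comp (cjD u) with hε'
  have hε'v : ∀ g, ε' g = ε (cjD u g) := fun g => rfl
  have hk' : Ker ε' := by
    intro g
    rw [hε'v, hker]
    simp only [cj_scal]
  have hnorm : ∀ s, ∃ s', x * ε' s * x⁻¹ = ε' s' := by
    intro s
    rw [hε'v]
    have h1 : ε (cjD u s) ∈ L := by rw [← hrange]; exact ⟨_, rfl⟩
    have h3 := (Subgroup.mem_normalizer_iff.1 hx _).1 h1
    rw [← hrange] at h3
    obtain ⟨k, hk⟩ := h3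
    refine ⟨cjD u⁻¹ k, ?_⟩
    rw [hε'v, cj_cj_inv]
    exact hk.symm
  have hcom : ∀ (i j : Fin (m + 1)) (s : SD (fd m d)), i.val + 1 < m + 1 → j.val + 1 < m + 1 →
      i ≠ j → (∀ y, ac s.1 y = fun k => if k = i ∨ k = j then -y k else y k) →
      x * ε' s = ε' s * x := by
    intro i j s _ _ hij hy
    refine hc _ ⟨s, ?_, rfl⟩
    refine ⟨fun k => if k = i ∨ k = j then -1 else 1, fun k => ?_, ?_⟩
    · by_cases hk : k = i ∨ k = j
      · simp [hk]
      · simp [hk]
    · apply Matrix.ext_of_mulVec_single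
      intro k
      have h1 := hy (Pi.single k 1)
      have h3 : ac s.1 (Pi.single k 1) = s.1.1 *ᵥ Pi.single k 1 := rfl
      rw [h3] at h1
      rw [h1]
      funext l
      rw [mulVec_diagonal]
      by_cases hl : l = i ∨ l = j
      · simp [hl]
      · simp [hl]
  have hSO : SD (fd m d) ≤ OD (fd m d) := by
    rintro g ⟨h, _, rfl⟩
    exact h.2
  obtain ⟨c, hc1, hact⟩ := hEO K h5 (m + 1) (by omega) (fd m d) (fd_ne hd0) fd_one (SD (fd m d))
    hBig hSO G ε' hk' x hnorm hcom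
  have hc0 : ∀ i, c i ≠ 0 := by
    intro i h
    have h1 := hc1 i
    rw [h, zero_pow two_ne_zero] at h1
    exact zero_ne_one h1
  have hcO : dg c hc0 ∈ OD (fd m d) := by
    have h1 : ∀ y, ac (dg c hc0) y = fun i => c i * y i := by
      intro y
      funext i
      show (diagonal c *ᵥ y) i = _
      rw [mulVec_diagonal]
    intro y z
    rw [h1, h1]
    unfold B
    refine Finset.sum_congr rfl fun i _ => ?_
    linear_combination (fd m d i * y i * z i) * hc1 i
  set D : ↥(OD (fd m d)) := ⟨dg c hc0, hcO⟩ with hD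
  refine ⟨u * D * u⁻¹, ⟨c, hc1, ?_⟩, fun h => ?_⟩
  · have h1 : u⁻¹ * (u * D * u⁻¹) * u = D := by group
    rw [h1]
    rfl
  · have h1 : ε h = ε' (cjD u⁻¹ h) := by rw [hε'v, cj_cj_inv]
    have h3 : x * ε' (cjD u⁻¹ h) * x⁻¹ = ε' (cjD D (cjD u⁻¹ h)) := by
      refine hact _ _ fun i j => ?_
      have h4 : (cjD D (cjD u⁻¹ h)).1.1 = diagonal c * (cjD u⁻¹ h).1.1 * diagonal (fun i => (c i)⁻¹) :=
        rfl
      rw [h4, mul_diagonal, diagonal_mul, inv_mul_cancel_right₀ (hc0 j)]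
    rw [h1, h3, hε'v, ← cjD_mul, ← cjD_mul, mul_assoc]

end Vale.Agent.P240.R2.H667
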