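import Vale.Agent.P240.R2.H667.R5

/-!
Products of two reflections lie in `SD`, the kernel of `ε`, and the elements of `Ad ε 1`.
-/

set_option autoImplicit false
set_option linter.all false

namespace Vale.Agent.P240.R2.H667

open Matrix
open Vale.Agent.P240.R2.H145.EO
open Vale.Agent.P240.R2.H401.D
open Vale.Agent.P240.R2.H275 (four_lin fd_ne fd_one)
open Vale.Agent.P240.R2.H490 (ip pj Lt Sm Sm_nil Sm_cons pj_mulVec pj_idem pj_eq pj_mul_eq_zero mat_ext
  Sm_eq_one)
open scoped Classical

universe u v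

section
variable {K : Type u} [Field K]

/-- norms up to squares -/
lemma exists_norm [Fintype K] (h5 : Fintype.card K = 5) {d : K} (hd : ¬ IsSquare d) {t : K}
    (ht : t ≠ 0) : ∃ s : K, s ≠ 0 ∧ (s * (s * t) = 1 ∨ s * (s * t) = d) := by
  obtain ⟨e⟩ := exists_e5 h5
  have h1 : ∀ d t : ZMod 5, (∀ r, d ≠ r * r) → t ≠ 0 → ∃ s : ZMod 5, s ≠ 0 ∧
      (s * (s * t) = 1 ∨ s * (s * t) = d) := by decide +kernel
  obtain ⟨s, h2, h3⟩ := h1 (e d) (e t) (fun r hr => hd ⟨e.symm r, e.injective (by
    rw [hr, map_mul, e.apply_symm_apply])⟩) (by simpa using ht)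
  refine ⟨e.symm s, by simpa using h2, ?_⟩
  rcases h3 with h3 | h3
  · left
    apply e.injective
    simp only [map_mul, RingEquiv.apply_symm_apply, map_one]
    exact h3
  · right
    apply e.injective
    simp only [map_mul, RingEquiv.apply_symm_apply]
    exact h3

variable {m : ℕ} {d : K}

lemma fd_zero (hm : 5 ≤ m) : fd m d 0 = 1 := fd_one 0 (by show 0 + 1 < m + 1; omega)

lemma fd_last : fd m d (Fin.last m) = d := by simp [fd]

/-- the first coordinate vector -/
def e0 (K : Type u) [Field K] (m : ℕ) : Fin (m + 1) → K := Pi.single 0 1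

lemma B_e0 (hm : 5 ≤ m) : B (fd m d) (e0 K m) (e0 K m) = 1 := by
  rw [e0, B_single, Pi.single_eq_same, fd_zero hm]; ring

lemma B_e0_ne (hm : 5 ≤ m) : B (fd m d) (e0 K m) (e0 K m) ≠ 0 := by
  rw [B_e0 hm]; exact one_ne_zero

/-- **the products of two reflections are in `SD`** -/
theorem rr_mul_mem [Fintype K] (hN : N5 K m d) {x y : Fin (m + 1) → K}
    (hx : B (fd m d) x x ≠ 0) (hy : B (fd m d) y y ≠ 0) :
    rr (fd m d) x * rr (fd m d) y ∈ SD (fd m d) := by
  have h5 := hN.fcard
  have h2 := two_ne5 h5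
  have hm := hN.hm
  obtain ⟨hbig, hdiag, -, -⟩ := stmtDF5 K m d hN
  -- it is enough to take the first coordinate vector
  have key : ∀ x : Fin (m + 1) → K, B (fd m d) x x ≠ 0 →
      rr (fd m d) x * rr (fd m d) (e0 K m) ∈ SD (fd m d) := by
    intro x hx
    obtain ⟨s, hs0, hs⟩ := exists_norm h5 hN.ns hx
    have e1 : B (fd m d) (s • x) (s • x) = s * (s * B (fd m d) x x) := by
      rw [B_smul_left, B_smul_right]
    rw [← rr_smul hs0 x]
    rcases hs with hs | hs
    · have h3 : B (fd m d) (s • x) (s • x) ≠ 0 := by rw [e1, hs]; exact one_ne_zero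
      rw [rr_pos h3, rr_pos (B_e0_ne hm)]
      exact hbig _ _ _ _ (by rw [e1, hs, B_e0 hm])
    · have hd0 := hN.dne
      have h3 : B (fd m d) (s • x) (s • x) ≠ 0 := by rw [e1, hs]; exact hd0
      have h4 : B (fd m d) (Pi.single (Fin.last m) 1) (Pi.single (Fin.last m) 1) = d := by
        rw [B_single, Pi.single_eq_same, fd_last]; ring
      have h4' : B (fd m d) (Pi.single (Fin.last m) 1) (Pi.single (Fin.last m) 1) ≠ 0 := by
        rw [h4]; exact hd0
      have k1 : rr (fd m d) (s • x) * rr (fd m d) (Pi.single (Fin.last m) 1) ∈ SD (fd m d) := by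
        rw [rr_pos h3, rr_pos h4']
        exact hbig _ _ _ _ (by rw [e1, hs, h4])
      have k2 : rr (fd m d) (Pi.single (Fin.last m) 1) * rr (fd m d) (e0 K m) ∈ SD (fd m d) := by
        have h0l : (0 : Fin (m + 1)) ≠ Fin.last m := by
          intro h
          have := congrArg Fin.val h
          rw [Fin.val_last, Fin.val_zero] at this
          omega
        refine (hdiag (fun k => (if k = Fin.last m then (-1 : K) else 1) *
          (if k = 0 then (-1 : K) else 1)) (fun i => ?_) _ ?_).2.2 ?_
        · by_cases h6 : i = Fin.last m <;> by_cases h7 : i = 0 <;> simp [h6, h7]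
        · show (rr (fd m d) (Pi.single (Fin.last m) 1)).1 * (rr (fd m d) (e0 K m)).1 = _
          rw [e0, rr_single h2 (fd_ne hd0 _), rr_single h2 (fd_ne hd0 _), diagonal_mul_diagonal]
        · rw [Finset.prod_mul_distrib, Finset.prod_ite_eq' Finset.univ (Fin.last m),
            Finset.prod_ite_eq' Finset.univ (0 : Fin (m + 1))]
          simp
      have k3 := mul_mem k1 k2
      have k4 : rr (fd m d) (s • x) * rr (fd m d) (Pi.single (Fin.last m) 1) *
          (rr (fd m d) (Pi.single (Fin.last m) 1) * rr (fd m d) (e0 K m)) =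
          rr (fd m d) (s • x) * rr (fd m d) (e0 K m) := by
        have := rr_sq (a := fd m d) (Pi.single (Fin.last m) 1)
        calc _ = rr (fd m d) (s • x) * (rr (fd m d) (Pi.single (Fin.last m) 1) *
              rr (fd m d) (Pi.single (Fin.last m) 1)) * rr (fd m d) (e0 K m) := by group
          _ = _ := by rw [this, mul_one]
      rwa [k4] at k3
  have h3 := mul_mem (key x hx) (inv_mem (key y hy))
  have h4 : rr (fd m d) x * rr (fd m d) (e0 K m) * (rr (fd m d) y * rr (fd m d) (e0 K m))⁻¹ =
      rr (fd m d) x * rr (fd m d) y := by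
    rw [_root_.mul_inv_rev, rr_inv, rr_inv]
    have := rr_sq (a := fd m d) (e0 K m)
    calc _ = rr (fd m d) x * (rr (fd m d) (e0 K m) * rr (fd m d) (e0 K m)) * rr (fd m d) y := by
            group
      _ = _ := by rw [this, mul_one]
  rwa [h4] at h3

variable {G : Type v} [Group G]

/-- `ε` as a total function -/
noncomputable def et {n : ℕ} {a : Fin n → K} (ε : SD a →* G) (g : GL (Fin n) K) : G :=
  if h : g ∈ SD a then ε ⟨g, h⟩ else 1

section
variable {n : ℕ} {a : Fin n → K} {ε : SD a →* G}

lemma et_pos {g : GL (Fin n) K} (h : g ∈ SD a) : et ε g = ε ⟨g, h⟩ := dif_pos h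

lemma et_mul {g h : GL (Fin n) K} (hg : g ∈ SD a) (hh : h ∈ SD a) :
    et ε (g * h) = et ε g * et ε h := by
  rw [et_pos hg, et_pos hh, et_pos (mul_mem hg hh), ← map_mul]
  rfl

lemma et_one : et ε (1 : GL (Fin n) K) = 1 := by
  rw [et_pos (one_mem _)]
  exact map_one ε

lemma et_inj {L : Subgroup G} (hε : DHom L ε) {g h : GL (Fin n) K} (hg : g ∈ SD a) (hh : h ∈ SD a)
    (he : et ε g = et ε h) : ∃ l : K, g.1 = l • h.1 := by
  rw [et_pos hg, et_pos hh] at he
  have h1 : ε (⟨g, hg⟩ * (⟨h, hh⟩ : SD a)⁻¹) = 1 := by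
    rw [map_mul, map_inv, he, mul_inv_cancel]
  obtain ⟨l, hl⟩ := (hε.ker _).1 h1
  refine ⟨l, ?_⟩
  have h2 : (g * h⁻¹).1 = l • (1 : Matrix (Fin n) (Fin n) K) := hl
  have h3 : g = (g * h⁻¹) * h := by group
  have h4 : g.1 = (g * h⁻¹).1 * h.1 := congrArg Units.val h3
  rw [h4, h2, smul_mul_assoc, one_mul]

lemma et_neg_one {L : Subgroup G} (hε : DHom L ε) (h : (-1 : GL (Fin n) K) ∈ SD a) :
    et ε (-1) = 1 := by
  rw [et_pos h]
  exact (hε.ker _).2 ⟨-1, by
    show -(1 : Matrix (Fin n) (Fin n) K) = _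
    rw [neg_one_smul]⟩

lemma et_mem {L : Subgroup G} (hε : DHom L ε) (g : GL (Fin n) K) : et ε g ∈ L := by
  by_cases h : g ∈ SD a
  · rw [et_pos h, ← hε.range]
    exact ⟨_, rfl⟩
  · rw [et, dif_neg h]
    exact one_mem _

lemma cj_one (h : SD a) : cjD 1 h = h := cjD_one h

lemma mem_Ad1 {y : G} : y ∈ Ad ε 1 ↔ ∃ g : SD a, (∃ c : Fin n → K, (∀ i, c i ^ 2 = 1) ∧
    g.1.1 = diagonal c) ∧ ε g = y := by
  constructor
  · rintro ⟨g, hg, rfl⟩
    refine ⟨g, hg, ?_⟩
    show _ = ε (cjD 1 g)
    rw [cjD_one]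
  · rintro ⟨g, hg, rfl⟩
    refine ⟨g, hg, ?_⟩
    show ε (cjD 1 g) = _
    rw [cjD_one]

end

/-- the group `Ad ε 1` is generated by the sign changes of two coordinates `0`, `i` -/
theorem Ad_le [Fintype K] (hN : N5 K m d) {ε : SD (fd m d) →* G} {S : Subgroup G}
    (hS : ∀ i : Fin m, et ε (rr (fd m d) (Pi.single i.succ 1) * rr (fd m d) (e0 K m)) ∈ S) :
    Ad ε 1 ≤ S := by
  have h5 := hN.fcard
  have h2 := two_ne5 h5
  have hm := hN.hm
  have hd0 := hN.dne
  obtain ⟨hbig, hdiag, -, -⟩ := stmtDF5 K m d hN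
  have hsn : ∀ i : Fin (m + 1), B (fd m d) (Pi.single i 1) (Pi.single i 1) ≠ 0 := by
    intro i
    rw [B_single, Pi.single_eq_same]
    simpa using fd_ne hd0 i
  have main : ∀ (k : ℕ) (c : Fin (m + 1) → K), (∀ i, c i ^ 2 = 1) → ∏ i, c i = 1 →
      (Finset.univ.filter (fun i : Fin m => c i.succ ≠ 1)).card ≤ k →
      ∀ g : GL (Fin (m + 1)) K, g.1 = diagonal c → et ε g ∈ S := by
    intro k
    induction k with
    | zero =>
      intro c hc hp hk g hg
      have h1 : ∀ i : Fin m, c i.succ = 1 := by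
        intro i
        by_contra h
        have h3 : i ∈ Finset.univ.filter (fun i : Fin m => c i.succ ≠ 1) := by simp [h]
        rw [Finset.card_eq_zero.1 (Nat.le_zero.1 hk)] at h3
        exact absurd h3 (Finset.notMem_empty _)
      have h0 : c 0 = 1 := by
        rw [Fin.prod_univ_succ, Finset.prod_eq_one (fun i _ => h1 i), mul_one] at hp
        exact hp
      have h3 : g = 1 := by
        apply Units.ext
        rw [hg]
        have : c = fun _ => 1 := funext (Fin.cases h0 h1)
        rw [this]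
        exact diagonal_one
      rw [h3, et_one]
      exact one_mem _
    | succ k ih =>
      intro c hc hp hk g hg
      by_cases h : ∃ i : Fin m, c i.succ ≠ 1
      · obtain ⟨i, hi⟩ := h
        have hi' : c i.succ = -1 := by
          have h3 : (c i.succ - 1) * (c i.succ + 1) = 0 := by linear_combination hc i.succ
          exact eq_neg_of_add_eq_zero_left ((mul_eq_zero.1 h3).resolve_left (sub_ne_zero.2 hi))
        set s := rr (fd m d) (Pi.single i.succ 1) * rr (fd m d) (e0 K m) with hs
        have hsm : s ∈ SD (fd m d) := rr_mul_mem hN (hsn _) (B_e0_ne hm)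
        have hs1 : s.1 = diagonal (fun k => (if k = i.succ then (-1 : K) else 1) *
            (if k = 0 then (-1 : K) else 1)) := by
          show (rr (fd m d) (Pi.single i.succ 1)).1 * (rr (fd m d) (e0 K m)).1 = _
          rw [e0, rr_single h2 (fd_ne hd0 _), rr_single h2 (fd_ne hd0 _), diagonal_mul_diagonal]
        have hgm : g ∈ SD (fd m d) := (hdiag c hc g hg).2.2 hp
        have hsg : (s * g).1 = diagonal (fun k => ((if k = i.succ then (-1 : K) else 1) *
            (if k = 0 then (-1 : K) else 1)) * c k) := by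
          show s.1 * g.1 = _
          rw [hs1, hg, diagonal_mul_diagonal]
        have h3 : et ε (s * g) ∈ S := by
          refine ih _ (fun k => ?_) ?_ ?_ _ hsg
          · rw [mul_pow, hc k, mul_one]
            by_cases h6 : k = i.succ <;> by_cases h7 : k = 0 <;> simp [h6, h7]
          · rw [Finset.prod_mul_distrib, hp, mul_one, Finset.prod_mul_distrib,
              Finset.prod_ite_eq' Finset.univ (i.succ),
              Finset.prod_ite_eq' Finset.univ (0 : Fin (m + 1))]
            simp
          · have h4 : Finset.univ.filter (fun k : Fin m => ((if k.succ = i.succ then (-1 : K) else 1) *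
                (if k.succ = 0 then (-1 : K) else 1)) * c k.succ ≠ 1) ⊂
                Finset.univ.filter (fun k : Fin m => c k.succ ≠ 1) := by
              rw [Finset.ssubset_iff_of_subset]
              · refine ⟨i, by simp [hi], by simp [hi']⟩
              · intro k hk
                simp only [Finset.mem_filter, Finset.mem_univ, true_and] at hk ⊢
                intro h5
                apply hk
                have h6 : k.succ ≠ i.succ := by
                  intro h7
                  rw [h7, hi'] at h5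
                  exact hi (by rw [hi', h5])
                simp [h6, h5, Fin.succ_ne_zero]
            have h5 := Finset.card_lt_card h4
            omega
        have h4 : et ε g = (et ε s)⁻¹ * et ε (s * g) := by
          rw [et_mul hsm hgm, inv_mul_cancel_left]
        rw [h4]
        exact mul_mem (inv_mem (hS i)) h3
      · push Not at h
        refine ih c hc hp ?_ g hg
        have h4 : Finset.univ.filter (fun i : Fin m => c i.succ ≠ 1) = ∅ := by
          rw [Finset.filter_eq_empty_iff]
          intro i _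
          rw [not_not]
          exact h i
        rw [h4]
        simp
  intro y hy
  obtain ⟨g, ⟨c, hc, hg⟩, rfl⟩ := mem_Ad1.1 hy
  have h3 := main _ c hc (((hdiag c hc g.1 hg).2).1 g.2) le_rfl g.1 hg
  rwa [et_pos g.2] at h3

/-- the sign changes of two coordinates are in `Ad ε 1` -/
lemma pair_Ad [Fintype K] (hN : N5 K m d) {ε : SD (fd m d) →* G} (i : Fin (m + 1)) :
    et ε (rr (fd m d) (Pi.single i 1) * rr (fd m d) (e0 K m)) ∈ Ad ε 1 := by
  have h5 := hN.fcard
  have h2 := two_ne5 h5
  have hd0 := hN.dne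
  have hsn : B (fd m d) (Pi.single i 1) (Pi.single i 1) ≠ 0 := by
    rw [B_single, Pi.single_eq_same]
    simpa using fd_ne hd0 i
  have hsm := rr_mul_mem hN hsn (B_e0_ne hN.hm)
  rw [et_pos hsm]
  refine mem_Ad1.2 ⟨_, ⟨fun k => (if k = i then (-1 : K) else 1) *
    (if k = 0 then (-1 : K) else 1), fun k => ?_, ?_⟩, rfl⟩
  · by_cases h6 : k = i <;> by_cases h7 : k = 0 <;> simp [h6, h7]
  · show (rr (fd m d) (Pi.single i 1)).1 * (rr (fd m d) (e0 K m)).1 = _
    rw [e0, rr_single h2 (fd_ne hd0 _), rr_single h2 (fd_ne hd0 _), diagonal_mul_diagonal]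

end

end Vale.Agent.P240.R2.H667
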