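import Vale.Agent.P240.R2.H667.T5a
import Vale.Agent.P240.R2.H987.L6

/-!
The two systems of reflections and their top cycles.
-/

set_option autoImplicit false
set_option linter.all false

namespace Vale.Agent.P240.R2.H667

open Matrix Vale.Agent.P240.K
open Vale.Agent.P240.R2.H145.EO
open Vale.Agent.P240.R2.H401.D
open Vale.Agent.P240.R2.H275 (four_lin fd_ne fd_one)
open Vale.Agent.P240.R2.H490 (ip pj Lt Sm Sm_nil Sm_cons pj_mulVec pj_idem pj_eq pj_mul_eq_zero mat_ext
  Sm_eq_one VR FrD mem_FrD Ew Ew_nil Ew_cons lt lt_x)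
open scoped Classical

universe u v w

section
variable {K : Type u} [Field K] {m : ℕ} {d : K}

/-- the form on the complement of the first coordinate vector -/
def dd (m : ℕ) (d : K) : Fin m → K := fun i => fd m d i.succ

/-- the embedding of the complement of the first coordinate vector -/
def hat (x : Fin m → K) : Fin (m + 1) → K := Fin.cons 0 x

lemma hat_zero (x : Fin m → K) : hat x 0 = 0 := rfl

lemma hat_succ (x : Fin m → K) (i : Fin m) : hat x i.succ = x i := rfl

lemma hat_ext {x y : Fin (m + 1) → K} (h0 : x 0 = y 0) (h : ∀ i : Fin m, x i.succ = y i.succ) :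
    x = y := funext (Fin.cases h0 h)

lemma hat_smul (c : K) (x : Fin m → K) : hat (c • x) = c • hat x :=
  hat_ext (by simp [hat_zero]) (fun i => by simp [hat_succ])

lemma hat_add (x y : Fin m → K) : hat (x + y) = hat x + hat y :=
  hat_ext (by simp [hat_zero]) (fun i => by simp [hat_succ])

lemma hat_sub (x y : Fin m → K) : hat (x - y) = hat x - hat y :=
  hat_ext (by simp [hat_zero]) (fun i => by simp [hat_succ])

lemma hat_single (i : Fin m) : hat (Pi.single i (1 : K)) = Pi.single i.succ 1 := by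
  refine hat_ext ?_ (fun j => ?_)
  · rw [hat_zero, Pi.single_eq_of_ne (Fin.succ_ne_zero i).symm]
  · rw [hat_succ]
    by_cases h : j = i
    · rw [h, Pi.single_eq_same, Pi.single_eq_same]
    · rw [Pi.single_eq_of_ne h, Pi.single_eq_of_ne (fun h' => h (Fin.succ_injective _ h'))]

lemma B_hat (x y : Fin m → K) : B (fd m d) (hat x) (hat y) = ip (dd m d) x y := by
  show ∑ i, fd m d i * hat x i * hat y i = ∑ i, dd m d i * x i * y i
  rw [Fin.sum_univ_succ, hat_zero, mul_zero, zero_mul, zero_add]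
  rfl

lemma B_hat_e0 (x : Fin m → K) : B (fd m d) (hat x) (e0 K m) = 0 := by
  rw [B_comm, e0, B_single, hat_zero, mul_zero]

lemma rf_hat (x y : Fin m → K) :
    H490.rf (fd m d) (hat x) (hat y) = hat (H490.rf (dd m d) x y) := by
  rw [H490.rf, H490.rf, ← B_eq_ip, ← B_eq_ip, B_hat, B_hat, hat_sub, hat_smul]

lemma pow_odd {H : Type*} [Group H] {x : H} (hx : x * x = 1) {k : ℕ} (hk : Odd k) : x ^ k = x := by
  obtain ⟨j, rfl⟩ := hk
  rw [pow_succ, pow_mul, pow_two, hx, one_pow, one_mul]

lemma pow_even {H : Type*} [Group H] {x : H} (hx : x * x = 1) {k : ℕ} (hk : Even k) :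
    x ^ k = 1 := by
  obtain ⟨j, rfl⟩ := hk
  rw [← two_mul, pow_mul, pow_two, hx, one_pow]

variable {G : Type v} [Group G]

section Te
variable [Fintype K]

/-- the system of reflections of the complement of the first coordinate vector -/
theorem vr_e (hN : N5 K m d) {L : Subgroup G} {ε : SD (fd m d) →* G} (hε : DHom L ε) :
    VR (dd m d) (fun x => et ε (rr (fd m d) (hat x) * rr (fd m d) (e0 K m))) := by
  have h2 := two_ne5 hN.fcard
  have hm := hN.hm
  have he0 := B_e0_ne (d := d) hm
  set C := rr (fd m d) (e0 K m) with hC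
  have hCC : C * C = 1 := rr_sq _
  have hcm : ∀ x : Fin m → K, rr (fd m d) (hat x) * C = C * rr (fd m d) (hat x) := fun x =>
    rr_comm (B_hat_e0 x)
  have hmem : ∀ x : Fin m → K, ip (dd m d) x x ≠ 0 → rr (fd m d) (hat x) * C ∈ SD (fd m d) :=
    fun x hx => rr_mul_mem hN (by rwa [B_hat]) he0
  have h2m : ∀ x y : Fin m → K, ip (dd m d) x x ≠ 0 → ip (dd m d) y y ≠ 0 →
      et ε (rr (fd m d) (hat x) * C) * et ε (rr (fd m d) (hat y) * C) =
        et ε (rr (fd m d) (hat x) * rr (fd m d) (hat y)) := by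
    intro x y hx hy
    rw [← et_mul (hmem x hx) (hmem y hy)]
    congr 1
    calc rr (fd m d) (hat x) * C * (rr (fd m d) (hat y) * C) =
        rr (fd m d) (hat x) * (C * rr (fd m d) (hat y)) * C := by group
      _ = rr (fd m d) (hat x) * rr (fd m d) (hat y) * (C * C) := by rw [← hcm]; group
      _ = _ := by rw [hCC, mul_one]
  refine ⟨fun c x hc hx => ?_, fun x y hx hy h => ?_, fun x hx => ?_, fun x y hx hy => ?_,
    fun x y x' y' hx hy hx' hy' hxy hxy' h1 h2' => ?_⟩
  · show et ε (rr (fd m d) (hat (c • x)) * C) = _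
    rw [hat_smul, rr_smul hc]
  · obtain ⟨l, hl⟩ := et_inj hε (hmem x hx) (hmem y hy) h
    have h3 : (rr (fd m d) (hat x)).1 = l • (rr (fd m d) (hat y)).1 := by
      have e1 : (rr (fd m d) (hat x)).1 = (rr (fd m d) (hat x) * C).1 * C.1 := by
        show _ = (rr (fd m d) (hat x) * C * C).1
        rw [mul_assoc, hCC, mul_one]
      have e2 : (rr (fd m d) (hat y)).1 = (rr (fd m d) (hat y) * C).1 * C.1 := by
        show _ = (rr (fd m d) (hat y) * C * C).1
        rw [mul_assoc, hCC, mul_one]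
      rw [e1, e2, hl, smul_mul_assoc]
    obtain ⟨c, hc⟩ := rr_inj h2 (by omega) (by rwa [B_hat]) (by rwa [B_hat]) h3
    refine ⟨c, funext fun i => ?_⟩
    have := congrFun hc i.succ
    simpa [hat_succ] using this
  · show et ε (rr (fd m d) (hat x) * C) * et ε (rr (fd m d) (hat x) * C) = 1
    rw [h2m x x hx hx, rr_sq, et_one]
  · show et ε (rr (fd m d) (hat x) * C) * et ε (rr (fd m d) (hat y) * C) *
      et ε (rr (fd m d) (hat x) * C) = et ε (rr (fd m d) (hat (H490.rf (dd m d) x y)) * C)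
    rw [h2m x y hx hy, ← et_mul (rr_mul_mem hN (by rwa [B_hat]) (by rwa [B_hat])) (hmem x hx),
      ← rf_hat, ← rr_cnj (by rwa [B_hat])]
    congr 1
    group
  · show et ε (rr (fd m d) (hat x) * C) * et ε (rr (fd m d) (hat y) * C) =
      et ε (rr (fd m d) (hat x') * C) * et ε (rr (fd m d) (hat y') * C)
    rw [h2m x y hx hy, h2m x' y' hx' hy']
    congr 1
    refine rr_plane (by rwa [B_hat]) (by rwa [B_hat]) (by rwa [B_hat]) (by rwa [B_hat])
      (by rwa [B_hat]) (by rwa [B_hat]) ?_ ?_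
    · obtain ⟨s, t, rfl⟩ := h1
      exact ⟨s, t, by rw [hat_add, hat_smul, hat_smul]⟩
    · obtain ⟨s, t, rfl⟩ := h2'
      exact ⟨s, t, by rw [hat_add, hat_smul, hat_smul]⟩

/-- the products over the frames -/
theorem full_e (hN : N5 K m d) {L : Subgroup G} {ε : SD (fd m d) →* G} (hε : DHom L ε) :
    ∀ w ∈ FrD (dd m d), Ew (fun P : Lt (dd m d) =>
      et ε (rr (fd m d) (hat P.x) * rr (fd m d) (e0 K m))) w = 1 := by
  have hm := hN.hm
  have he0 := B_e0_ne (d := d) hm
  set C := rr (fd m d) (e0 K m) with hC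
  have hCC : C * C = 1 := rr_sq _
  have hcm : ∀ x : Fin m → K, rr (fd m d) (hat x) * C = C * rr (fd m d) (hat x) := fun x =>
    rr_comm (B_hat_e0 x)
  have hmem : ∀ x : Fin m → K, ip (dd m d) x x ≠ 0 → rr (fd m d) (hat x) * C ∈ SD (fd m d) :=
    fun x hx => rr_mul_mem hN (by rwa [B_hat]) he0
  have main : ∀ u : List (Lt (dd m d)),
      (u.map fun P => rr (fd m d) (hat P.x)).prod * C ^ u.length ∈ SD (fd m d) ∧
      (u.map fun P => rr (fd m d) (hat P.x)).prod * C =
        C * (u.map fun P => rr (fd m d) (hat P.x)).prod ∧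
      Ew (fun P : Lt (dd m d) => et ε (rr (fd m d) (hat P.x) * C)) u =
        et ε ((u.map fun P => rr (fd m d) (hat P.x)).prod * C ^ u.length) := by
    intro u
    induction u with
    | nil =>
      refine ⟨?_, ?_, ?_⟩
      · simp only [List.map_nil, List.prod_nil, List.length_nil, pow_zero, mul_one]
        exact one_mem _
      · simp
      · simp only [List.map_nil, List.prod_nil, List.length_nil, pow_zero, mul_one, Ew_nil]
        exact et_one.symm
    | cons P u ih =>
      obtain ⟨ih1, ih2, ih3⟩ := ih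
      have hP := hmem P.x P.hx
      have h1 : (rr (fd m d) (hat P.x) * (u.map fun P => rr (fd m d) (hat P.x)).prod) *
          C ^ (u.length + 1) = (rr (fd m d) (hat P.x) * C) *
            ((u.map fun P => rr (fd m d) (hat P.x)).prod * C ^ u.length) := by
        rw [pow_succ']
        calc _ = rr (fd m d) (hat P.x) * ((u.map fun P => rr (fd m d) (hat P.x)).prod * C) *
              C ^ u.length := by group
          _ = _ := by rw [ih2]; group
      refine ⟨?_, ?_, ?_⟩
      · rw [List.map_cons, List.prod_cons, List.length_cons, h1]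
        exact mul_mem hP ih1
      · rw [List.map_cons, List.prod_cons, mul_assoc, ih2, ← mul_assoc, hcm, mul_assoc]
      · rw [List.map_cons, List.prod_cons, List.length_cons, h1, et_mul hP ih1, Ew_cons, ih3]
  intro w hw
  obtain ⟨hlen, hpw⟩ := mem_FrD.1 hw
  obtain ⟨h1, h2, h3⟩ := main w
  rw [h3]
  -- the frame with the first coordinate vector
  have hx : ∀ P : Lt (dd m d), ip (fd m d) (hat P.x) (hat P.x) ≠ 0 := by
    intro P
    rw [← B_eq_ip, B_hat]
    exact P.hx
  let hl : Lt (dd m d) → Lt (fd m d) := fun P => lt (hx P)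
  let l0 : Lt (fd m d) := lt (x := e0 K m) he0
  have hl0 : rr (fd m d) l0.x = C := by
    obtain ⟨c, hc, h⟩ := lt_x (d := fd m d) (x := e0 K m) he0
    show rr (fd m d) (lt (d := fd m d) (x := e0 K m) he0).x = _
    rw [h, rr_smul hc]
  have hlx : ∀ P : Lt (dd m d), rr (fd m d) (hl P).x = rr (fd m d) (hat P.x) := by
    intro P
    obtain ⟨c, hc, h⟩ := lt_x (hx P)
    show rr (fd m d) (lt (hx P)).x = _
    rw [h, rr_smul hc]
  have hfr : (l0 :: w.map hl).Pairwise (fun P Q => P.v * Q.v = 0) := by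
    rw [List.pairwise_cons, List.pairwise_map]
    refine ⟨?_, ?_⟩
    · intro Q hQ
      obtain ⟨P, -, rfl⟩ := List.mem_map.1 hQ
      rw [Lt.orth_iff]
      obtain ⟨c, hc, h⟩ := lt_x (hx P)
      obtain ⟨c', hc', h'⟩ := lt_x (d := fd m d) (x := e0 K m) he0
      show ip (fd m d) (lt (d := fd m d) (x := e0 K m) he0).x (lt (hx P)).x = 0
      rw [h, h', H490.ip_smul_left, H490.ip_smul_right, H490.ip_comm, ← B_eq_ip, B_hat_e0]
      simp
    · refine hpw.imp fun {P Q} hPQ => ?_
      rw [Lt.orth_iff] at hPQ ⊢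
      obtain ⟨c, hc, h⟩ := lt_x (hx P)
      obtain ⟨c', hc', h'⟩ := lt_x (hx Q)
      show ip (fd m d) (lt (hx P)).x (lt (hx Q)).x = 0
      rw [h, h', H490.ip_smul_left, H490.ip_smul_right, ← B_eq_ip, B_hat, hPQ]
      simp
  have hfull := rr_full hfr (by rw [List.length_cons, List.length_map, hlen])
  rw [List.map_cons, List.prod_cons, hl0, List.map_map] at hfull
  have e1 : (w.map ((fun P => rr (fd m d) P.x) ∘ hl)) = w.map fun P => rr (fd m d) (hat P.x) :=
    List.map_congr_left fun P _ => hlx P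
  rw [e1] at hfull
  have e2 : C ^ m = C := pow_odd hCC hN.modd
  rw [hlen, e2] at h1 ⊢
  rw [h2, hfull] at h1 ⊢
  exact et_neg_one hε h1

/-- **the top cycle (Te)** -/
theorem top_e [Finite G] (hN : N5 K m d) {L : Subgroup G} {ε : SD (fd m d) →* G} (hε : DHom L ε)
    (H : Subgroup G) (hH : ∀ g ∈ SD (fd m d), g * rr (fd m d) (e0 K m) =
      rr (fd m d) (e0 K m) * g → et ε g ∈ H) (𝕜 : Type w) [Field 𝕜] :
    ∃ (α : Ch 𝕜 (Subgroup G)) (φ : List (Subgroup G)), TopCycle 𝕜 2 H (Ad ε 1) α φ := by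
  have hm := hN.hm
  have hd0 := hN.dne
  have he0 := B_e0_ne (d := d) hm
  obtain ⟨e⟩ := exists_e5 hN.fcard
  obtain ⟨α, φ, h⟩ := H987.top_std e (by omega) (fun i => fd_ne hd0 i.succ) (vr_e hN hε)
    (full_e hN hε) H (fun x hx => hH _ (rr_mul_mem hN (by rwa [B_hat]) he0) (by
      rw [← mul_assoc, ← rr_comm (B_hat_e0 x)])) ⟨⟨0, by omega⟩, by
        show IsSquare (fd m d (Fin.succ ⟨0, _⟩))
        rw [fd_one _ (by
          show 0 + 1 + 1 < m + 1
          omega)]
        exact ⟨1, by ring⟩⟩ ⟨⟨m - 1, by omega⟩, by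
        show ¬ IsSquare (fd m d (Fin.succ ⟨m - 1, _⟩))
        have h1 : (⟨m - 1, by omega⟩ : Fin m).succ = Fin.last m := by
          apply Fin.ext
          show m - 1 + 1 = m
          omega
        rw [h1, fd_last]
        exact hN.ns⟩ 𝕜
  have h1 : Subgroup.closure (Set.range fun i : Fin m =>
      et ε (rr (fd m d) (hat (Pi.single i 1)) * rr (fd m d) (e0 K m))) = Ad ε 1 := by
    simp only [hat_single]
    apply le_antisymm
    · rw [Subgroup.closure_le]
      rintro _ ⟨i, rfl⟩
      exact pair_Ad hN _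
    · exact Ad_le hN fun i => Subgroup.subset_closure ⟨i, rfl⟩
  rw [h1] at h
  exact ⟨α, φ, h⟩

end Te

section Se
variable [Fintype K]

/-- the action of `e` -/
def AE {m : ℕ} {d : K} (ε : SD (fd m d) →* G) (e : G) : Prop :=
  e * e = 1 ∧ ∀ g ∈ SD (fd m d), rr (fd m d) (e0 K m) * g * rr (fd m d) (e0 K m) ∈ SD (fd m d) ∧
    e * et ε g = et ε (rr (fd m d) (e0 K m) * g * rr (fd m d) (e0 K m)) * e

/-- the system of reflections of the space -/
theorem vr_s (hN : N5 K m d) {L : Subgroup G} {ε : SD (fd m d) →* G} (hε : DHom L ε) {e : G}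
    (he : AE ε e) :
    VR (fd m d) (fun x => et ε (rr (fd m d) x * rr (fd m d) (e0 K m)) * e) := by
  have h2 := two_ne5 hN.fcard
  have hm := hN.hm
  have he0 := B_e0_ne (d := d) hm
  obtain ⟨hee, hact⟩ := he
  set C := rr (fd m d) (e0 K m) with hC
  have hCC : C * C = 1 := rr_sq _
  have hmem : ∀ x : Fin (m + 1) → K, B (fd m d) x x ≠ 0 → rr (fd m d) x * C ∈ SD (fd m d) :=
    fun x hx => rr_mul_mem hN hx he0
  have h2m : ∀ x y : Fin (m + 1) → K, B (fd m d) x x ≠ 0 → B (fd m d) y y ≠ 0 →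
      et ε (rr (fd m d) x * C) * e * (et ε (rr (fd m d) y * C) * e) =
        et ε (rr (fd m d) x * rr (fd m d) y) := by
    intro x y hx hy
    obtain ⟨h3, h4⟩ := hact _ (hmem y hy)
    calc et ε (rr (fd m d) x * C) * e * (et ε (rr (fd m d) y * C) * e) =
        et ε (rr (fd m d) x * C) * (e * et ε (rr (fd m d) y * C)) * e := by group
      _ = et ε (rr (fd m d) x * C) * et ε (C * (rr (fd m d) y * C) * C) * (e * e) := by
          rw [h4]; group
      _ = et ε ((rr (fd m d) x * C) * (C * (rr (fd m d) y * C) * C)) := by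
          rw [hee, mul_one, et_mul (hmem x hx) h3]
      _ = _ := by
          congr 1
          calc (rr (fd m d) x * C) * (C * (rr (fd m d) y * C) * C) =
              rr (fd m d) x * (C * C) * rr (fd m d) y * (C * C) := by group
            _ = _ := by rw [hCC, mul_one, mul_one]
  refine ⟨fun c x hc hx => ?_, fun x y hx hy h => ?_, fun x hx => ?_, fun x y hx hy => ?_,
    fun x y x' y' hx hy hx' hy' hxy hxy' h1 h2' => ?_⟩
  · show et ε (rr (fd m d) (c • x) * C) * e = _
    rw [rr_smul hc]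
  · obtain ⟨l, hl⟩ := et_inj hε (hmem x hx) (hmem y hy) (mul_right_cancel h)
    have h3 : (rr (fd m d) x).1 = l • (rr (fd m d) y).1 := by
      have e1 : (rr (fd m d) x).1 = (rr (fd m d) x * C).1 * C.1 := by
        show _ = (rr (fd m d) x * C * C).1
        rw [mul_assoc, hCC, mul_one]
      have e2 : (rr (fd m d) y).1 = (rr (fd m d) y * C).1 * C.1 := by
        show _ = (rr (fd m d) y * C * C).1
        rw [mul_assoc, hCC, mul_one]
      rw [e1, e2, hl, smul_mul_assoc]
    exact rr_inj h2 (by omega) hx hy h3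
  · show et ε (rr (fd m d) x * C) * e * (et ε (rr (fd m d) x * C) * e) = 1
    rw [h2m x x hx hx, rr_sq, et_one]
  · show et ε (rr (fd m d) x * C) * e * (et ε (rr (fd m d) y * C) * e) *
      (et ε (rr (fd m d) x * C) * e) = et ε (rr (fd m d) (H490.rf (fd m d) x y) * C) * e
    rw [h2m x y hx hy, ← mul_assoc, ← et_mul (rr_mul_mem hN hx hy) (hmem x hx), ← rr_cnj hx]
    congr 2
    group
  · show et ε (rr (fd m d) x * C) * e * (et ε (rr (fd m d) y * C) * e) =
      et ε (rr (fd m d) x' * C) * e * (et ε (rr (fd m d) y' * C) * e)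
    rw [h2m x y hx hy, h2m x' y' hx' hy', rr_plane hx hy hx' hy' hxy hxy' h1 h2']

/-- the products over the frames -/
theorem full_s (hN : N5 K m d) {L : Subgroup G} {ε : SD (fd m d) →* G} (hε : DHom L ε) {e : G}
    (he : AE ε e) : ∀ w ∈ FrD (fd m d), Ew (fun P : Lt (fd m d) =>
      et ε (rr (fd m d) P.x * rr (fd m d) (e0 K m)) * e) w = 1 := by
  have hm := hN.hm
  have he0 := B_e0_ne (d := d) hm
  obtain ⟨hee, hact⟩ := he
  set C := rr (fd m d) (e0 K m) with hC
  have hCC : C * C = 1 := rr_sq _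
  have hmem : ∀ x : Fin (m + 1) → K, B (fd m d) x x ≠ 0 → rr (fd m d) x * C ∈ SD (fd m d) :=
    fun x hx => rr_mul_mem hN hx he0
  have main : ∀ u : List (Lt (fd m d)),
      (u.map fun P => rr (fd m d) P.x).prod * C ^ u.length ∈ SD (fd m d) ∧
      Ew (fun P : Lt (fd m d) => et ε (rr (fd m d) P.x * C) * e) u =
        et ε ((u.map fun P => rr (fd m d) P.x).prod * C ^ u.length) * e ^ u.length := by
    intro u
    induction u with
    | nil =>
      refine ⟨?_, ?_⟩
      · simp only [List.map_nil, List.prod_nil, List.length_nil, pow_zero, mul_one]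
        exact one_mem _
      · simp only [List.map_nil, List.prod_nil, List.length_nil, pow_zero, mul_one, Ew_nil]
        exact et_one.symm
    | cons P u ih =>
      obtain ⟨ih1, ih3⟩ := ih
      have hP := hmem P.x P.hx
      obtain ⟨h3, h4⟩ := hact _ ih1
      have h1 : (rr (fd m d) P.x * (u.map fun P => rr (fd m d) P.x).prod) *
          C ^ (u.length + 1) = (rr (fd m d) P.x * C) *
            (C * ((u.map fun P => rr (fd m d) P.x).prod * C ^ u.length) * C) := by
        rw [pow_succ]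
        calc _ = rr (fd m d) P.x * 1 * ((u.map fun P => rr (fd m d) P.x).prod *
              C ^ u.length * C) := by rw [mul_one]; group
          _ = _ := by rw [← hCC]; group
      refine ⟨?_, ?_⟩
      · rw [List.map_cons, List.prod_cons, List.length_cons, h1]
        exact mul_mem hP h3
      · rw [List.map_cons, List.prod_cons, List.length_cons, h1, et_mul hP h3, Ew_cons, ih3,
          pow_succ']
        calc _ = et ε (rr (fd m d) P.x * C) *
              (e * et ε ((u.map fun P => rr (fd m d) P.x).prod * C ^ u.length)) *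
                e ^ u.length := by group
          _ = _ := by rw [h4]; group
  intro w hw
  obtain ⟨hlen, hpw⟩ := mem_FrD.1 hw
  obtain ⟨h1, h3⟩ := main w
  rw [h3, hlen]
  rw [hlen] at h1
  have hfull := rr_full hpw hlen
  rw [pow_even hCC hN.modd.add_one, mul_one, hfull] at h1 ⊢
  rw [pow_even hee hN.modd.add_one, mul_one]
  exact et_neg_one hε h1

/-- **the top cycle (Se)** -/
theorem top_s [Finite G] (hN : N5 K m d) {L : Subgroup G} {ε : SD (fd m d) →* G} (hε : DHom L ε)
    {e : G} (he : AE ε e) (𝕜 : Type w) [Field 𝕜] :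
    ∃ (α : Ch 𝕜 (Subgroup G)) (φ : List (Subgroup G)),
      TopCycle 𝕜 2 (L ⊔ Subgroup.zpowers e) (Ad ε 1 ⊔ Subgroup.zpowers e) α φ := by
  have hm := hN.hm
  have hd0 := hN.dne
  have he0 := B_e0_ne (d := d) hm
  obtain ⟨e5⟩ := exists_e5 hN.fcard
  have hel : e ∈ L ⊔ Subgroup.zpowers e := Subgroup.mem_sup_right (Subgroup.mem_zpowers e)
  obtain ⟨α, φ, h⟩ := H987.top_std e5 (by omega) (fun i => fd_ne hd0 i) (vr_s hN hε he)
    (full_s hN hε he) (L ⊔ Subgroup.zpowers e)
    (fun x hx => mul_mem (Subgroup.mem_sup_left (et_mem hε _)) hel) ⟨0, by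
        rw [fd_zero hm]
        exact ⟨1, by ring⟩⟩ ⟨Fin.last m, by
        rw [fd_last]
        exact hN.ns⟩ 𝕜
  have hee : Subgroup.zpowers e ≤ Ad ε 1 ⊔ Subgroup.zpowers e := le_sup_right
  have h1 : Subgroup.closure (Set.range fun i : Fin (m + 1) =>
      et ε (rr (fd m d) (Pi.single i 1) * rr (fd m d) (e0 K m)) * e) =
        Ad ε 1 ⊔ Subgroup.zpowers e := by
    apply le_antisymm
    · rw [Subgroup.closure_le]
      rintro _ ⟨i, rfl⟩
      exact mul_mem (Subgroup.mem_sup_left (pair_Ad hN _)) (hee (Subgroup.mem_zpowers e))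
    · have h2 : e ∈ Subgroup.closure (Set.range fun i : Fin (m + 1) =>
          et ε (rr (fd m d) (Pi.single i 1) * rr (fd m d) (e0 K m)) * e) := by
        refine Subgroup.subset_closure ⟨0, ?_⟩
        show et ε (rr (fd m d) (Pi.single 0 1) * rr (fd m d) (e0 K m)) * e = e
        rw [e0, rr_sq, et_one, one_mul]
      refine sup_le (Ad_le hN fun i => ?_) (by rw [Subgroup.zpowers_le]; exact h2)
      have h3 : et ε (rr (fd m d) (Pi.single i.succ 1) * rr (fd m d) (e0 K m)) =
          (et ε (rr (fd m d) (Pi.single i.succ 1) * rr (fd m d) (e0 K m)) * e) * e⁻¹ := by group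
      rw [h3]
      exact mul_mem (Subgroup.subset_closure ⟨i.succ, rfl⟩) (inv_mem h2)
  rw [h1] at h
  exact ⟨α, φ, h⟩

end Se

end

end Vale.Agent.P240.R2.H667
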